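import Mathlib
import Crest.Agent.X212.Bki64.Lim
import Crest.Agent.X212.Tmp64.Cfg
import Crest.Agent.X212.Loc66.Paste
import Crest.Agent.X212.Mp86.Wd
import Crest.Agent.X212.Dgr80.Pw
import Crest.Agent.X212.Nd18.Term

-- ▼ part X212/Brk64/Cen
section

/-!
# Breaking on long necks: the centres

`𝒰` is an ultrafilter of solutions on necks, `J R n` the part of the `n`-th neck at depth `R`,
`win n s` the energy of the window at time `s`, `en n s t` the energy between the times `s ≤ t`.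
-/

namespace Crest.Agent.X212.Brk64

open Set Filter Topology

variable {ν : Type*}

/-- The time axes of a family of necks: `J R n` = times at distance `≥ R` from the ends. -/
structure Nk (ν : Type*) where
  J : ℝ → ν → Set ℝ
  lip : ∀ {R r n s s'}, s ∈ J (R + r) n → |s' - s| ≤ r → s' ∈ J R n
  oc : ∀ R n, (J R n).OrdConnected
  cl : ∀ R n, IsClosed (J R n)

/-- finite necks `[a n, b n]` -/
def Nk.icc (a b : ν → ℝ) : Nk ν where
  J R n := Icc (a n + R) (b n - R)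
  lip h h' := ⟨by linarith [h.1, (abs_le.1 h').1], by linarith [h.2, (abs_le.1 h').2]⟩
  oc _ _ := ordConnected_Icc
  cl _ _ := isClosed_Icc

/-- outgoing ends `[a n, ∞)` -/
def Nk.ici (a : ν → ℝ) : Nk ν where
  J R n := Ici (a n + R)
  lip h h' := by simp only [mem_Ici] at *; linarith [(abs_le.1 h').1]
  oc _ _ := ordConnected_Ici
  cl _ _ := isClosed_Ici

/-- incoming ends `(-∞, b n]` -/
def Nk.iic (b : ν → ℝ) : Nk ν where
  J R n := Iic (b n - R)
  lip h h' := by simp only [mem_Iic] at *; linarith [(abs_le.1 h').2]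
  oc _ _ := ordConnected_Iic
  cl _ _ := isClosed_Iic

/-- the whole line -/
def Nk.line (ν : Type*) : Nk ν where
  J _ _ := univ
  lip _ _ := mem_univ _
  oc _ _ := ordConnected_univ
  cl _ _ := isClosed_univ

theorem Nk.anti (N : Nk ν) {R R' : ℝ} (h : R ≤ R') (n : ν) : N.J R' n ⊆ N.J R n := fun s hs =>
  N.lip (r := R' - R) (s := s) (by simpa using hs) (by simpa using h)

/-- `s n` runs away from the ends -/
def Nk.Deep (N : Nk ν) (𝒰 : Ultrafilter ν) (s : ν → ℝ) : Prop := ∀ R, ∀ᶠ n in 𝒰, s n ∈ N.J R n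

theorem Nk.Deep.add {N : Nk ν} {𝒰 : Ultrafilter ν} {s : ν → ℝ} (h : N.Deep 𝒰 s) (r : ℝ) :
    N.Deep 𝒰 fun n => s n + r := fun R =>
  (h (R + |r|)).mono fun n hn => N.lip hn (by simp)

/-- What is needed for a diagonal choice: either `𝒰` is countably incomplete (sequences, necks of
length `→ ∞`), or the superlevel sets of the window energy are compact. -/
def Nk.Sel (N : Nk ν) (𝒰 : Ultrafilter ν) (win : ν → ℝ → ℝ) : Prop :=
  (∃ h : ν → ℝ, Tendsto h 𝒰 atTop) ∨ ∀ n, ∀ ε > 0, IsCompact {s ∈ N.J 0 n | ε ≤ win n s}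

theorem diag {α : Type*} [Nonempty α] {𝒰 : Ultrafilter ν} {A : ℕ → ν → Set α}
    (anti : ∀ n, Antitone fun R => A R n) (hne : ∀ R, ∀ᶠ n in 𝒰, (A R n).Nonempty)
    (hs : (∃ h : ν → ℝ, Tendsto h 𝒰 atTop) ∨
      ∀ n, (∀ R, (A R n).Nonempty) → (⋂ R, A R n).Nonempty) :
    ∃ s : ν → α, ∀ R, ∀ᶠ n in 𝒰, s n ∈ A R n := by
  classical
  rcases hs with ⟨h, hh⟩ | hs
  · have : ∀ n, ∃ x, ∀ R : ℕ, (R : ℝ) ≤ h n → (A R n).Nonempty → x ∈ A R n := by
      intro n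
      by_cases h0 : (A 0 n).Nonempty
      · obtain ⟨x, hx⟩ := Nat.findGreatest_spec (P := fun R => (A R n).Nonempty)
          (Nat.zero_le ⌊h n⌋₊) h0
        exact ⟨x, fun R hR hA => anti n (Nat.le_findGreatest (Nat.le_floor hR) hA) hx⟩
      · exact ⟨Classical.arbitrary α, fun R _ hA => absurd (hA.mono (anti n (Nat.zero_le R))) h0⟩
    choose s hs using this
    exact ⟨s, fun R => ((hne R).and (hh.eventually_ge_atTop R)).mono fun n hn => hs n R hn.2 hn.1⟩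
  · have : ∀ n, ∃ x, ∀ R : ℕ, (A R n).Nonempty → x ∈ A R n := by
      intro n
      by_cases h0 : ∀ R, (A R n).Nonempty
      · obtain ⟨x, hx⟩ := hs n h0
        exact ⟨x, fun R _ => mem_iInter.1 hx R⟩
      · have h0' : ∃ R, ¬(A R n).Nonempty := not_forall.1 h0
        rcases hR : Nat.find h0' with _ | m
        · refine ⟨Classical.arbitrary α, fun R hA => absurd (hA.mono (anti n (Nat.zero_le R))) ?_⟩
          exact hR ▸ Nat.find_spec h0'
        · obtain ⟨x, hx⟩ := not_not.1 (Nat.find_min h0' (m := m) (by omega))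
          refine ⟨x, fun R hA => anti n ?_ hx⟩
          by_contra hh
          exact Nat.find_spec h0' (hA.mono (anti n (by omega)))
    choose s hs using this
    exact ⟨s, fun R => (hne R).mono fun n hn => hs n R hn⟩

/-- `t` runs away from `s` to the right -/
def Rt (𝒰 : Ultrafilter ν) (s t : ν → ℝ) : Prop := Tendsto (fun n => t n - s n) 𝒰 atTop

theorem Rt.trans {𝒰 : Ultrafilter ν} {s t u : ν → ℝ} (h : Rt 𝒰 s t) (h' : Rt 𝒰 t u) :
    Rt 𝒰 s u := by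
  simpa [Rt] using Tendsto.atTop_add_atTop h' h

theorem Rt.irrefl {𝒰 : Ultrafilter ν} (s : ν → ℝ) : ¬Rt 𝒰 s s := fun h => by
  obtain ⟨n, hn⟩ := (h.eventually_gt_atTop 0).exists
  simp at hn

theorem rt_or {𝒰 : Ultrafilter ν} {s t : ν → ℝ} (h : Tendsto (fun n => |t n - s n|) 𝒰 atTop) :
    Rt 𝒰 s t ∨ Rt 𝒰 t s := by
  rcases 𝒰.em fun n => s n ≤ t n with h1 | h1
  · exact Or.inl (h.congr' (h1.mono fun n hn => abs_of_nonneg (sub_nonneg.2 hn)))
  · refine Or.inr (h.congr' (h1.mono fun n hn => ?_))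
    simp only [abs_of_neg (sub_neg.2 (not_le.1 hn)), neg_sub]

/-- a family of pairwise diverging times can be sorted -/
theorem sort_div {𝒰 : Ultrafilter ν} {κ : Type*} [Fintype κ] (t : κ → ν → ℝ)
    (h : ∀ i j, i ≠ j → Rt 𝒰 (t i) (t j) ∨ Rt 𝒰 (t j) (t i)) {k : ℕ} (hk : Fintype.card κ = k) :
    ∃ e : Fin k ≃ κ, ∀ i j, i < j → Rt 𝒰 (t (e i)) (t (e j)) := by
  classical
  let r : κ → κ → Prop := fun i j => Rt 𝒰 (t i) (t j)
  have : IsStrictTotalOrder κ r :=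
    { trichotomous := fun i j h1 h2 => by
        by_contra hne
        rcases h i j hne with h' | h'
        · exact h1 h'
        · exact h2 h'
      irrefl := fun i => Rt.irrefl _
      trans := fun _ _ _ => Rt.trans }
  let := linearOrderOfSTO r
  exact ⟨(monoEquivOfFin κ hk).toEquiv, fun i j hij => (monoEquivOfFin κ hk).strictMono hij⟩

/-- superadditive energy, bounded by `E` -/
def Nk.En (N : Nk ν) (𝒰 : Ultrafilter ν) (en : ν → ℝ → ℝ → ℝ) (E : ℝ) : Prop :=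
  ∀ᶠ n in 𝒰, (∀ s t t' u, s ∈ N.J 0 n → u ∈ N.J 0 n → s ≤ t → t ≤ t' → t' ≤ u →
    en n s t + en n t' u ≤ en n s u) ∧
    ∀ s t, s ∈ N.J 0 n → t ∈ N.J 0 n → s ≤ t → 0 ≤ en n s t ∧ en n s t ≤ E

theorem chain_sum {J : Set ℝ} {e : ℝ → ℝ → ℝ}
    (he : ∀ s t t' u, s ∈ J → u ∈ J → s ≤ t → t ≤ t' → t' ≤ u → e s t + e t' u ≤ e s u) (k : ℕ)
    (p q : Fin (k + 1) → ℝ) (hp : ∀ i, p i ∈ J) (hq : ∀ i, q i ∈ J) (hpq : ∀ i, p i ≤ q i)
    (hqp : ∀ i j, i < j → q i ≤ p j) : ∑ i, e (p i) (q i) ≤ e (p 0) (q (Fin.last k)) := by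
  induction k with
  | zero => simp
  | succ k ih =>
    rw [Fin.sum_univ_castSucc]
    have h1 := ih (fun i => p i.castSucc) (fun i => q i.castSucc) (fun i => hp _) (fun i => hq _)
      (fun i => hpq _) fun i j hij => hqp _ _ (Fin.castSucc_lt_castSucc_iff.2 hij)
    have h2 : p 0 ≤ q (Fin.last k).castSucc := by
      rcases (Fin.zero_le (Fin.last k).castSucc).eq_or_lt with h | h
      · rw [← h]; exact hpq 0
      · exact (hpq 0).trans ((hqp _ _ h).trans (hpq _))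
    have h3 := he _ _ _ _ (hp 0) (hq (Fin.last (k + 1))) h2
      (hqp _ _ (Fin.castSucc_lt_last (Fin.last k))) (hpq _)
    simp only [Fin.castSucc_zero] at h1
    linarith

/-- the energies carried by diverging windows add up to at most `E` -/
theorem Nk.sum_en_le (N : Nk ν) {𝒰 : Ultrafilter ν} {en : ν → ℝ → ℝ → ℝ} {E : ℝ} (hE0 : 0 ≤ E)
    (hE : N.En 𝒰 en E) {k : ℕ} {t : Fin k → ν → ℝ} (hd : ∀ i, N.Deep 𝒰 (t i))
    (hs : ∀ i j, i < j → Rt 𝒰 (t i) (t j)) (R : Fin k → ℝ) (hR : ∀ i, 0 ≤ R i) :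
    ∀ᶠ n in 𝒰, ∑ i, en n (t i n - R i) (t i n + R i) ≤ E := by
  rcases k with _ | k
  · simpa using hE0
  have h1 : ∀ᶠ n in 𝒰, ∀ i, t i n ∈ N.J (0 + R i) n := eventually_all.2 fun i => hd i _
  have h2 : ∀ᶠ n in 𝒰, ∀ i j, i < j → R i + R j ≤ t j n - t i n :=
    eventually_all.2 fun i => eventually_all.2 fun j => eventually_imp_distrib_left.2 fun hij =>
      (hs i j hij).eventually_ge_atTop _
  filter_upwards [h1, h2, hE] with n h1 h2 hE
  have hp : ∀ i, t i n - R i ∈ N.J 0 n := fun i => N.lip (h1 i) (by simp [abs_of_nonneg (hR i)])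
  have hq : ∀ i, t i n + R i ∈ N.J 0 n := fun i => N.lip (h1 i) (by simp [abs_of_nonneg (hR i)])
  refine (chain_sum hE.1 k _ _ hp hq (fun i => by linarith [hR i])
    fun i j hij => by linarith [h2 i j hij]).trans (hE.2 _ _ (hp 0) (hq _) ?_).2
  rcases (Fin.zero_le (Fin.last k)).eq_or_lt with h | h
  · rw [← h]; linarith [hR 0]
  · linarith [h2 _ _ h, hR 0, hR (Fin.last k)]

/-- `s n` carries energy in the limit -/
def Carry (𝒰 : Ultrafilter ν) (win : ν → ℝ → ℝ) (s : ν → ℝ) : Prop :=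
  ∃ ε > 0, ∀ᶠ n in 𝒰, ε ≤ win n (s n)

/-- The centres of breaking: sorted, deep, each one carries energy, and away from them and from the
ends the window energy tends to zero uniformly. -/
structure Nk.Cen (N : Nk ν) (𝒰 : Ultrafilter ν) (win : ν → ℝ → ℝ) (k : ℕ) (t : Fin k → ν → ℝ) :
    Prop where
  deep : ∀ i, N.Deep 𝒰 (t i)
  sep : ∀ i j, i < j → Rt 𝒰 (t i) (t j)
  carry : ∀ i, Carry 𝒰 win (t i)
  gap : ∀ ε > 0, ∃ R, ∀ᶠ n in 𝒰, ∀ s ∈ N.J R n, (∀ i, R ≤ |s - t i n|) → win n s < ε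

/-- **Centres.**  `hq` = energy quantisation: a deep sequence of windows which carries energy
carries at least `ε₁` in a bounded neighbourhood. -/
theorem Nk.exists_cen (N : Nk ν) {𝒰 : Ultrafilter ν} {win : ν → ℝ → ℝ} {en : ν → ℝ → ℝ → ℝ}
    {E ε₁ : ℝ} (hE0 : 0 ≤ E) (hε : 0 < ε₁) (hE : N.En 𝒰 en E) (hsel : N.Sel 𝒰 win)
    (hq : ∀ s, N.Deep 𝒰 s → Carry 𝒰 win s →
      ∃ R, 0 ≤ R ∧ ∀ᶠ n in 𝒰, ε₁ ≤ en n (s n - R) (s n + R)) :
    ∃ (k : ℕ) (t : Fin k → ν → ℝ), k * ε₁ ≤ E ∧ N.Cen 𝒰 win k t := by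
  classical
  let P : ℕ → Prop := fun k => ∃ t : Fin k → ν → ℝ, (∀ i, N.Deep 𝒰 (t i)) ∧
    (∀ i j, i < j → Rt 𝒰 (t i) (t j)) ∧ ∀ i, Carry 𝒰 win (t i)
  have hb : ∀ k, P k → k * ε₁ ≤ E := by
    rintro k ⟨t, hd, hs, hc⟩
    choose R hR0 hR using fun i => hq _ (hd i) (hc i)
    obtain ⟨n, h1, h2⟩ := ((N.sum_en_le hE0 hE hd hs R hR0).and (eventually_all.2 hR)).exists
    refine le_trans ?_ h1
    simpa using Finset.card_nsmul_le_sum Finset.univ _ _ fun i _ => h2 i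
  have hb' : ∀ k, P k → k ≤ ⌊E / ε₁⌋₊ := fun k hk =>
    Nat.le_floor ((le_div_iff₀ hε).2 (hb k hk))
  have h0 : P 0 := ⟨Fin.elim0, fun i => i.elim0, fun i => i.elim0, fun i => i.elim0⟩
  have hk := Nat.findGreatest_spec (P := P) (Nat.zero_le ⌊E / ε₁⌋₊) h0
  set k := Nat.findGreatest P ⌊E / ε₁⌋₊ with hkd
  have hmax : ¬P (k + 1) := fun h =>
    absurd (Nat.le_findGreatest (hb' _ h) h) (by rw [← hkd]; omega)
  refine (id hk : ∃ _, _).elim fun t ⟨hd, hs, hc⟩ => ⟨k, t, hb k hk, hd, hs, hc, fun ε hε => ?_⟩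
  by_contra hcon
  have hne : ∀ R : ℕ, ∀ᶠ n in 𝒰,
      {s | (s ∈ N.J R n ∧ ∀ i, (R : ℝ) ≤ |s - t i n|) ∧ ε ≤ win n s}.Nonempty := fun R => by
    refine (Ultrafilter.eventually_not.2 fun h => hcon ⟨R, h⟩).mono fun n hn => ?_
    push Not at hn
    obtain ⟨s, h1, h2, h3⟩ := hn
    exact ⟨s, ⟨h1, h2⟩, h3⟩
  have anti : ∀ n, Antitone fun R : ℕ =>
      {s | (s ∈ N.J R n ∧ ∀ i, (R : ℝ) ≤ |s - t i n|) ∧ ε ≤ win n s} := fun n R R' h s hs =>
    ⟨⟨N.anti (Nat.cast_le.2 h) n hs.1.1, fun i => (Nat.cast_le.2 h).trans (hs.1.2 i)⟩, hs.2⟩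
  obtain ⟨s, hs'⟩ := diag anti hne (hsel.imp id fun hK n hn => by
    have hcl : ∀ R : ℕ, IsClosed {s | s ∈ N.J R n ∧ ∀ i, (R : ℝ) ≤ |s - t i n|} := fun R => by
      have : IsClosed {s | ∀ i, (R : ℝ) ≤ |s - t i n|} := by
        simp only [ofPred_forall]
        exact isClosed_iInter fun i => isClosed_le continuous_const (by fun_prop)
      exact (N.cl R n).inter this
    have hcp : ∀ R : ℕ,
        IsCompact {s | (s ∈ N.J R n ∧ ∀ i, (R : ℝ) ≤ |s - t i n|) ∧ ε ≤ win n s} := fun R => by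
      have := (hK n ε hε).inter_left (hcl R)
      convert this using 1
      ext s
      exact ⟨fun h => ⟨h.1, N.anti (Nat.cast_nonneg R) n h.1.1, h.2⟩, fun h => ⟨h.1, h.2.2⟩⟩
    exact IsCompact.nonempty_iInter_of_sequence_nonempty_isCompact_isClosed _
      (fun R => anti n (Nat.le_succ R)) hn (hcp 0) fun R => (hcp R).isClosed)
  have hdiv : ∀ i, Tendsto (fun n => |s n - t i n|) 𝒰 atTop := fun i =>
    tendsto_atTop.2 fun b => (hs' ⌈b⌉₊).mono fun n hn => (Nat.le_ceil b).trans (hn.1.2 i)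
  let t' : Option (Fin k) → ν → ℝ := fun o => o.elim s t
  obtain ⟨e, he⟩ := sort_div (𝒰 := 𝒰) t' (k := k + 1) (by
    rintro (_ | i) (_ | j) hij
    · exact absurd rfl hij
    · exact (rt_or (hdiv j)).symm
    · exact rt_or (hdiv i)
    · rcases lt_or_gt_of_ne (fun h => hij (congrArg some h)) with h | h
      · exact Or.inl (hs i j h)
      · exact Or.inr (hs j i h)) (by simp)
  have a1 : ∀ o, N.Deep 𝒰 (t' o) := by
    rintro (_ | j)
    · exact fun R => (hs' ⌈R⌉₊).mono fun n hn => N.anti (Nat.le_ceil R) n hn.1.1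
    · exact hd j
  have a2 : ∀ o, Carry 𝒰 win (t' o) := by
    rintro (_ | j)
    · exact ⟨ε, hε, (hs' 0).mono fun n hn => hn.2⟩
    · exact hc j
  exact hmax ⟨fun i => t' (e i), fun i => a1 _, he, fun i => a2 _⟩

/-- energy given by a nonnegative density -/
theorem Nk.en_integral (N : Nk ν) {𝒰 : Ultrafilter ν} (f : ν → ℝ → ℝ) {E : ℝ}
    (h : ∀ᶠ n in 𝒰, (∀ s, 0 ≤ f n s) ∧ ∀ s t, s ∈ N.J 0 n → t ∈ N.J 0 n → s ≤ t →
      IntervalIntegrable (f n) MeasureTheory.volume s t ∧ ∫ x in s..t, f n x ≤ E) :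
    N.En 𝒰 (fun n s t => ∫ x in s..t, f n x) E := by
  refine h.mono fun n ⟨h0, h1⟩ => ⟨fun s t t' u hs hu h2 h3 h4 => ?_, fun s t hs ht hst =>
    ⟨intervalIntegral.integral_nonneg hst fun x _ => h0 x, (h1 s t hs ht hst).2⟩⟩
  have ht : t ∈ N.J 0 n := (N.oc 0 n).out hs hu ⟨h2, h3.trans h4⟩
  have ht' : t' ∈ N.J 0 n := (N.oc 0 n).out hs hu ⟨h2.trans h3, h4⟩
  have e1 := intervalIntegral.integral_add_adjacent_intervals (h1 s t hs ht h2).1
    (h1 t t' ht ht' h3).1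
  have e2 := intervalIntegral.integral_add_adjacent_intervals
    (h1 s t' hs ht' (h2.trans h3)).1 (h1 t' u ht' hu h4).1
  have e3 : 0 ≤ ∫ x in t..t', f n x := intervalIntegral.integral_nonneg h3 fun x _ => h0 x
  linarith

/-- energy given by the drop of a monotone function -/
theorem Nk.en_mono (N : Nk ν) {𝒰 : Ultrafilter ν} (c : ν → ℝ → ℝ) {E : ℝ}
    (h : ∀ᶠ n in 𝒰, MonotoneOn (c n) (N.J 0 n) ∧
      ∀ s t, s ∈ N.J 0 n → t ∈ N.J 0 n → s ≤ t → c n t - c n s ≤ E) :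
    N.En 𝒰 (fun n s t => c n t - c n s) E := by
  refine h.mono fun n ⟨h0, h1⟩ => ⟨fun s t t' u hs hu h2 h3 h4 => ?_, fun s t hs ht hst =>
    ⟨sub_nonneg.2 (h0 hs ht hst), h1 s t hs ht hst⟩⟩
  have := h0 ((N.oc 0 n).out hs hu ⟨h2, h3.trans h4⟩) ((N.oc 0 n).out hs hu ⟨h2.trans h3, h4⟩) h3
  linarith

end Crest.Agent.X212.Brk64
end

-- ▼ part X212/Brk64/Chn
section

/-!
# Breaking on long necks: the chain of critical points

`near n s β η` : the window of the `n`-th solution at time `s` is `η`-close (modulo gauge) to the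
critical point `β`.
-/

namespace Crest.Agent.X212.Brk64

open Set Filter Topology

variable {ν C : Type*}

theorem one_of_cover [Nonempty C] {A : Set ℝ} (hA : IsPreconnected A) (P : ℝ → C → Prop)
    (ex : ∀ s ∈ A, ∃ β, P s β) (uq : ∀ s ∈ A, ∀ β β', P s β → P s β' → β = β')
    (op : ∀ s ∈ A, ∀ β, P s β → ∀ᶠ s' in 𝓝 s, P s' β) : ∃ β, ∀ s ∈ A, P s β := by
  rcases A.eq_empty_or_nonempty with rfl | ⟨x, hx⟩
  · exact ⟨Classical.arbitrary C, fun s hs => hs.elim⟩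
  obtain ⟨β, hβ⟩ := ex x hx
  refine ⟨β, fun s hs => hA.induction₂' (fun x y => ∀ β, P x β → P y β) (fun x hx => ?_)
    (fun _ _ _ _ _ _ h h' β hb => h' β (h β hb)) hx hs β hβ⟩
  obtain ⟨γ, hγ⟩ := ex x hx
  filter_upwards [nhdsWithin_le_nhds (op x hx γ hγ), self_mem_nhdsWithin] with y hy hyA
  exact ⟨fun β hb => uq x hx γ β hγ hb ▸ hy, fun β hb => uq y hyA γ β hy hb ▸ hγ⟩

/-- The analytic input: closeness to the critical points. -/
structure Nk.Near (N : Nk ν) (𝒰 : Ultrafilter ν) (win : ν → ℝ → ℝ)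
    (near : ν → ℝ → C → ℝ → Prop) : Prop where
  mono : ∀ n s β η η', η ≤ η' → near n s β η → near n s β η'
  /-- small energy forces closeness to some critical point -/
  small : ∀ η > 0, ∃ ε > 0, ∃ R, ∀ᶠ n in 𝒰, ∀ s ∈ N.J R n, win n s < ε → ∃ β, near n s β η
  /-- critical points are isolated, and closeness is an open condition in the time -/
  iso : ∃ η > 0, ∃ R, ∀ᶠ n in 𝒰, ∀ s ∈ N.J R n, ∀ β, near n s β η →
    (∀ β', near n s β' η → β = β') ∧ ∀ᶠ s' in 𝓝 s, near n s' β η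

/-- the metric form of `Near` -/
theorem Nk.near_of_dist (N : Nk ν) {𝒰 : Ultrafilter ν} {win : ν → ℝ → ℝ} {W : Type*}
    [PseudoMetricSpace W] (w : ν → ℝ → W) (cr : C → W) {ρ R₀ : ℝ} (hρ : 0 < ρ)
    (hsep : ∀ β β', dist (cr β) (cr β') < ρ → β = β')
    (hc : ∀ᶠ n in 𝒰, ∀ s ∈ N.J R₀ n, ContinuousAt (w n) s)
    (small : ∀ η > 0, ∃ ε > 0, ∃ R, ∀ᶠ n in 𝒰, ∀ s ∈ N.J R n, win n s < ε →
      ∃ β, dist (w n s) (cr β) < η) :
    N.Near 𝒰 win fun n s β η => dist (w n s) (cr β) < η where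
  mono _ _ _ _ _ h h' := h'.trans_le h
  small := small
  iso := ⟨ρ / 2, half_pos hρ, R₀, hc.mono fun n hn s hs β hβ =>
    ⟨fun β' hβ' => hsep _ _ (by linarith [dist_triangle_left (cr β) (cr β') (w n s)]),
      ((hn s hs).dist continuousAt_const).eventually_lt_const hβ⟩⟩

/-- the `g`-th gap between the centres, at depth `R` -/
def Nk.Gap (N : Nk ν) {k : ℕ} (t : Fin k → ν → ℝ) (g : Fin (k + 1)) (R : ℝ) (n : ν) : Set ℝ :=
  {s | s ∈ N.J R n ∧ ∀ i : Fin k, (i.castSucc < g → t i n + R ≤ s) ∧ (g ≤ i.castSucc → s + R ≤ t i n)}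

theorem Nk.gap_anti (N : Nk ν) {k : ℕ} (t : Fin k → ν → ℝ) (g : Fin (k + 1)) {R R' : ℝ}
    (h : R ≤ R') (n : ν) : N.Gap t g R' n ⊆ N.Gap t g R n := fun _ hs =>
  ⟨N.anti h n hs.1, fun i => ⟨fun h' => by linarith [(hs.2 i).1 h'],
    fun h' => by linarith [(hs.2 i).2 h']⟩⟩

theorem Nk.gap_oc (N : Nk ν) {k : ℕ} (t : Fin k → ν → ℝ) (g : Fin (k + 1)) (R : ℝ) (n : ν) :
    (N.Gap t g R n).OrdConnected :=
  ⟨fun _ hx _ hy _ hs => ⟨(N.oc R n).out hx.1 hy.1 hs, fun i =>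
    ⟨fun h => ((hx.2 i).1 h).trans hs.1, fun h => by linarith [(hy.2 i).2 h, hs.2]⟩⟩⟩

theorem Nk.gap_far (N : Nk ν) {k : ℕ} {t : Fin k → ν → ℝ} {g : Fin (k + 1)} {R : ℝ} {n : ν}
    {s : ℝ} (hs : s ∈ N.Gap t g R n) (i : Fin k) : R ≤ |s - t i n| := by
  rcases lt_or_ge i.castSucc g with h | h
  · exact le_trans (by linarith [(hs.2 i).1 h]) (le_abs_self _)
  · exact le_trans (by linarith [(hs.2 i).2 h]) (neg_le_abs _)

/-- the chain of critical points: in the `g`-th gap the solutions stay near `β g` -/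
def Nk.Chain (N : Nk ν) (𝒰 : Ultrafilter ν) (near : ν → ℝ → C → ℝ → Prop) {k : ℕ}
    (t : Fin k → ν → ℝ) (β : Fin (k + 1) → C) : Prop :=
  ∀ η > 0, ∃ R, 0 ≤ R ∧ ∀ᶠ n in 𝒰, ∀ g, ∀ s ∈ N.Gap t g R n, near n s (β g) η

theorem Nk.Cen.chain [Finite C] [Nonempty C] {N : Nk ν} {𝒰 : Ultrafilter ν} {win : ν → ℝ → ℝ}
    {near : ν → ℝ → C → ℝ → Prop} {k : ℕ} {t : Fin k → ν → ℝ} (h : N.Cen 𝒰 win k t)
    (hn : N.Near 𝒰 win near) : ∃ β, N.Chain 𝒰 near t β := by
  have key : ∀ η > 0, ∃ R, 0 ≤ R ∧ ∀ᶠ n in 𝒰, ∀ g, ∀ s ∈ N.Gap t g R n, ∃ β, near n s β η := by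
    intro η hη
    obtain ⟨ε, hε, R1, h1⟩ := hn.small η hη
    obtain ⟨R2, h2⟩ := h.gap ε hε
    refine ⟨max 0 (max R1 R2), le_max_left _ _, ?_⟩
    filter_upwards [h1, h2] with n h1 h2 g s hs
    have e1 : R1 ≤ max 0 (max R1 R2) := (le_max_left _ _).trans (le_max_right _ _)
    have e2 : R2 ≤ max 0 (max R1 R2) := (le_max_right _ _).trans (le_max_right _ _)
    exact h1 s (N.anti e1 n hs.1) (h2 s (N.anti e2 n hs.1) fun i => e2.trans (N.gap_far hs i))
  obtain ⟨η0, hη0, R0, h0⟩ := hn.iso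
  obtain ⟨R1, -, h1⟩ := key η0 hη0
  have h2 : ∀ g, ∃ β, ∀ᶠ n in 𝒰, ∀ s ∈ N.Gap t g (max R0 R1) n, near n s β η0 := fun g => by
    refine Ultrafilter.eventually_exists_iff.1 ?_
    filter_upwards [h0, h1] with n h0 h1
    have e0 := fun s (hs : s ∈ N.Gap t g (max R0 R1) n) => h0 s (N.anti (le_max_left _ _) n hs.1)
    exact one_of_cover (N.gap_oc t g _ n).isPreconnected (fun s β => near n s β η0)
      (fun s hs => h1 g s (N.gap_anti t g (le_max_right _ _) n hs))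
      (fun s hs β β' hb => (e0 s hs β hb).1 β') fun s hs β hb => (e0 s hs β hb).2
  choose β hβ using h2
  refine ⟨β, fun η hη => ?_⟩
  obtain ⟨R2, hR2, h2⟩ := key (min η η0) (lt_min hη hη0)
  refine ⟨max (max R0 R1) R2, hR2.trans (le_max_right _ _), ?_⟩
  filter_upwards [h0, h2, eventually_all.2 hβ] with n h0 h2 h3 g s hs
  obtain ⟨γ, hγ⟩ := h2 g s (N.gap_anti t g (le_max_right _ _) n hs)
  have hs' := N.gap_anti t g (le_max_left _ _) n hs
  rw [(h0 s (N.anti (le_max_left _ _) n hs'.1) _ (h3 g s hs')).1 γ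
    (hn.mono _ _ _ _ _ (min_le_right _ _) hγ)]
  exact hn.mono _ _ _ _ _ (min_le_left _ _) hγ

theorem Nk.Cen.mem_right {N : Nk ν} {𝒰 : Ultrafilter ν} {win : ν → ℝ → ℝ} {k : ℕ}
    {t : Fin k → ν → ℝ} (h : N.Cen 𝒰 win k t) (i : Fin k) {R s : ℝ} (hs : R ≤ s) :
    ∀ᶠ n in 𝒰, t i n + s ∈ N.Gap t i.succ R n := by
  have h1 : ∀ᶠ n in 𝒰, ∀ j, j < i → 0 ≤ t i n - t j n := eventually_all.2 fun j =>
    eventually_imp_distrib_left.2 fun hj => (h.sep j i hj).eventually_ge_atTop _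
  have h2 : ∀ᶠ n in 𝒰, ∀ j, i < j → s + R ≤ t j n - t i n := eventually_all.2 fun j =>
    eventually_imp_distrib_left.2 fun hj => (h.sep i j hj).eventually_ge_atTop _
  filter_upwards [h1, h2, (h.deep i).add s R] with n h1 h2 h3
  refine ⟨h3, fun j => ⟨fun hj => ?_, fun hj => ?_⟩⟩
  · rcases (Fin.castSucc_lt_succ_iff.1 hj).eq_or_lt with rfl | hj
    · linarith
    · linarith [h1 j hj]
  · linarith [h2 j (Fin.succ_le_castSucc_iff.1 hj)]

theorem Nk.Cen.mem_left {N : Nk ν} {𝒰 : Ultrafilter ν} {win : ν → ℝ → ℝ} {k : ℕ}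
    {t : Fin k → ν → ℝ} (h : N.Cen 𝒰 win k t) (i : Fin k) {R s : ℝ} (hs : R ≤ s) :
    ∀ᶠ n in 𝒰, t i n - s ∈ N.Gap t i.castSucc R n := by
  have h1 : ∀ᶠ n in 𝒰, ∀ j, j < i → s + R ≤ t i n - t j n := eventually_all.2 fun j =>
    eventually_imp_distrib_left.2 fun hj => (h.sep j i hj).eventually_ge_atTop _
  have h2 : ∀ᶠ n in 𝒰, ∀ j, i < j → 0 ≤ t j n - t i n := eventually_all.2 fun j =>
    eventually_imp_distrib_left.2 fun hj => (h.sep i j hj).eventually_ge_atTop _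
  filter_upwards [h1, h2, (h.deep i).add (-s) R] with n h1 h2 h3
  refine ⟨by simpa [sub_eq_add_neg] using h3, fun j => ⟨fun hj => ?_, fun hj => ?_⟩⟩
  · linarith [h1 j (Fin.castSucc_lt_castSucc_iff.1 hj)]
  · rcases (Fin.castSucc_le_castSucc_iff.1 hj).eq_or_lt with rfl | hj
    · linarith
    · linarith [h2 j hj]

/-- the limit at the centre `i` runs into `β (i+1)` -/
theorem Nk.Chain.right {N : Nk ν} {𝒰 : Ultrafilter ν} {win : ν → ℝ → ℝ}
    {near : ν → ℝ → C → ℝ → Prop} {k : ℕ} {t : Fin k → ν → ℝ} {β : Fin (k + 1) → C}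
    (hc : N.Chain 𝒰 near t β) (h : N.Cen 𝒰 win k t) (i : Fin k) {η : ℝ} (hη : 0 < η) :
    ∃ R, ∀ s, R ≤ s → ∀ᶠ n in 𝒰, near n (t i n + s) (β i.succ) η := by
  obtain ⟨R, -, h1⟩ := hc η hη
  exact ⟨R, fun s hs => ((h.mem_right i hs).and h1).mono fun n hn => hn.2 _ _ hn.1⟩

/-- the limit at the centre `i` comes from `β i` -/
theorem Nk.Chain.left {N : Nk ν} {𝒰 : Ultrafilter ν} {win : ν → ℝ → ℝ}
    {near : ν → ℝ → C → ℝ → Prop} {k : ℕ} {t : Fin k → ν → ℝ} {β : Fin (k + 1) → C}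
    (hc : N.Chain 𝒰 near t β) (h : N.Cen 𝒰 win k t) (i : Fin k) {η : ℝ} (hη : 0 < η) :
    ∃ R, ∀ s, R ≤ s → ∀ᶠ n in 𝒰, near n (t i n - s) (β i.castSucc) η := by
  obtain ⟨R, -, h1⟩ := hc η hη
  exact ⟨R, fun s hs => ((h.mem_left i hs).and h1).mono fun n hn => hn.2 _ _ hn.1⟩

/-- **Broken trajectories**, general form. -/
theorem Nk.break [Finite C] [Nonempty C] (N : Nk ν) {𝒰 : Ultrafilter ν} {win : ν → ℝ → ℝ}
    {en : ν → ℝ → ℝ → ℝ} {near : ν → ℝ → C → ℝ → Prop} {E ε₁ : ℝ} (hE0 : 0 ≤ E) (hε : 0 < ε₁)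
    (hE : N.En 𝒰 en E) (hsel : N.Sel 𝒰 win) (hn : N.Near 𝒰 win near)
    (hq : ∀ s, N.Deep 𝒰 s → Carry 𝒰 win s →
      ∃ R, 0 ≤ R ∧ ∀ᶠ n in 𝒰, ε₁ ≤ en n (s n - R) (s n + R)) :
    ∃ (k : ℕ) (t : Fin k → ν → ℝ) (β : Fin (k + 1) → C),
      k * ε₁ ≤ E ∧ N.Cen 𝒰 win k t ∧ N.Chain 𝒰 near t β := by
  obtain ⟨k, t, h1, h2⟩ := N.exists_cen hE0 hε hE hsel hq
  obtain ⟨β, h3⟩ := h2.chain hn
  exact ⟨k, t, β, h1, h2, h3⟩

/-- the knots `a, t 0, …, t (k-1), b` of a finite neck -/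
def knots {k : ℕ} (a b : ν → ℝ) (t : Fin k → ν → ℝ) : Fin (k + 2) → ν → ℝ :=
  Fin.cons a (Fin.snoc (α := fun _ => ν → ℝ) t b)

@[simp] theorem knots_zero {k : ℕ} (a b : ν → ℝ) (t : Fin k → ν → ℝ) : knots a b t 0 = a := rfl

@[simp] theorem knots_last {k : ℕ} (a b : ν → ℝ) (t : Fin k → ν → ℝ) :
    knots a b t (Fin.last (k + 1)) = b := by
  rw [knots, ← Fin.succ_last, Fin.cons_succ, Fin.snoc_last]

@[simp] theorem knots_mid {k : ℕ} (a b : ν → ℝ) (t : Fin k → ν → ℝ) (i : Fin k) :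
    knots a b t i.castSucc.succ = t i := by
  rw [knots, Fin.cons_succ, Fin.snoc_castSucc]

theorem deep_icc {𝒰 : Ultrafilter ν} {a b s : ν → ℝ} :
    (Nk.icc a b).Deep 𝒰 s ↔ Rt 𝒰 a s ∧ Rt 𝒰 s b :=
  ⟨fun h => ⟨tendsto_atTop.2 fun R => (h R).mono fun n hn => by linarith [hn.1],
      tendsto_atTop.2 fun R => (h R).mono fun n hn => by linarith [hn.2]⟩,
    fun h R => ((h.1.eventually_ge_atTop R).and (h.2.eventually_ge_atTop R)).mono fun n hn =>
      ⟨by linarith [hn.1], by linarith [hn.2]⟩⟩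

theorem knots_sep {𝒰 : Ultrafilter ν} {win : ν → ℝ → ℝ} {k : ℕ} {a b : ν → ℝ}
    {t : Fin k → ν → ℝ} (hab : Rt 𝒰 a b) (h : (Nk.icc a b).Cen 𝒰 win k t) (i j : Fin (k + 2))
    (hij : i < j) : Rt 𝒰 (knots a b t i) (knots a b t j) := by
  obtain ⟨j, rfl⟩ := Fin.exists_succ_eq.2 (Fin.pos_iff_ne_zero.1 ((Fin.zero_le i).trans_lt hij))
  induction i using Fin.cases with
  | zero =>
    induction j using Fin.lastCases with
    | last => rw [Fin.succ_last, knots_last]; exact hab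
    | cast j => rw [knots_mid]; exact (deep_icc.1 (h.deep j)).1
  | succ i =>
    have hij' := Fin.succ_lt_succ_iff.1 hij
    obtain ⟨i, rfl⟩ := Fin.exists_castSucc_eq.2 (hij'.trans_le (Fin.le_last j)).ne
    rw [knots_mid]
    induction j using Fin.lastCases with
    | last => rw [Fin.succ_last, knots_last]; exact (deep_icc.1 (h.deep i)).2
    | cast j => rw [knots_mid]; exact h.sep i j (Fin.castSucc_lt_castSucc_iff.1 hij')

/-- **Broken trajectories on a long finite neck** `[a n, b n]`: knots `p 0 = a < … < p last = b`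
running away from each other, the inner ones carry energy, and between consecutive knots the
solutions stay near one critical point. -/
theorem break_icc [Finite C] [Nonempty C] {𝒰 : Ultrafilter ν} {a b : ν → ℝ} (hab : Rt 𝒰 a b)
    {win : ν → ℝ → ℝ} {en : ν → ℝ → ℝ → ℝ} {near : ν → ℝ → C → ℝ → Prop} {E ε₁ : ℝ}
    (hE0 : 0 ≤ E) (hε : 0 < ε₁) (hE : (Nk.icc a b).En 𝒰 en E)
    (hn : (Nk.icc a b).Near 𝒰 win near)
    (hq : ∀ s, Rt 𝒰 a s → Rt 𝒰 s b → Carry 𝒰 win s →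
      ∃ R, 0 ≤ R ∧ ∀ᶠ n in 𝒰, ε₁ ≤ en n (s n - R) (s n + R)) :
    ∃ (k : ℕ) (p : Fin (k + 2) → ν → ℝ) (β : Fin (k + 1) → C),
      k * ε₁ ≤ E ∧ p 0 = a ∧ p (Fin.last _) = b ∧ (∀ i j, i < j → Rt 𝒰 (p i) (p j)) ∧
      (∀ i : Fin k, Carry 𝒰 win (p i.castSucc.succ)) ∧
      ∀ η > 0, ∃ R, 0 ≤ R ∧ ∀ᶠ n in 𝒰, ∀ g : Fin (k + 1),
        ∀ s ∈ Icc (p g.castSucc n + R) (p g.succ n - R), near n s (β g) η := by
  obtain ⟨k, t, β, h1, h2, h3⟩ := (Nk.icc a b).break hE0 hε hE (Or.inl ⟨_, hab⟩) hn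
    fun s hs => hq s (deep_icc.1 hs).1 (deep_icc.1 hs).2
  have hs := knots_sep hab h2
  refine ⟨k, knots a b t, β, h1, rfl, knots_last a b t, hs, fun i => by simpa using h2.carry i,
    fun η hη => ?_⟩
  obtain ⟨R, hR, h4⟩ := h3 η hη
  have h5 : ∀ᶠ n in 𝒰, ∀ i j, i ≤ j → knots a b t i n ≤ knots a b t j n :=
    eventually_all.2 fun i => eventually_all.2 fun j => eventually_imp_distrib_left.2 fun hij => by
      rcases hij.eq_or_lt with rfl | hij
      · exact Eventually.of_forall fun _ => le_rfl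
      · exact ((hs i j hij).eventually_ge_atTop 0).mono fun n hn => sub_nonneg.1 hn
  refine ⟨R, hR, ?_⟩
  filter_upwards [h4, h5] with n h4 h5 g s hs
  refine h4 g s ⟨⟨?_, ?_⟩, fun i => ⟨fun hi => ?_, fun hi => ?_⟩⟩
  · have := h5 0 g.castSucc (Fin.zero_le _)
    rw [knots_zero] at this
    linarith [hs.1]
  · have := h5 g.succ (Fin.last _) (Fin.le_last _)
    rw [knots_last] at this
    linarith [hs.2]
  · have := h5 i.castSucc.succ g.castSucc (Fin.succ_le_castSucc_iff.2 hi)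
    rw [knots_mid] at this
    linarith [hs.1]
  · have := h5 g.succ i.castSucc.succ (Fin.succ_le_succ_iff.2 hi)
    rw [knots_mid] at this
    linarith [hs.2]

/-- **Limit of one trajectory at an end** (`l = atTop` or `atBot`, `A R` the part of the end at
depth `R`); no finiteness of the set of critical points is needed. -/
theorem end_lim_top [Nonempty C] {win : ℝ → ℝ} {near : ℝ → C → ℝ → Prop}
    (hw : ∀ ε > 0, ∀ᶠ s in atTop, win s < ε)
    (mono : ∀ s β η η', η ≤ η' → near s β η → near s β η')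
    (small : ∀ η > 0, ∃ ε > 0, ∀ᶠ s in atTop, win s < ε → ∃ β, near s β η)
    (iso : ∃ η > 0, ∀ᶠ s in atTop, ∀ β, near s β η →
      (∀ β', near s β' η → β = β') ∧ ∀ᶠ s' in 𝓝 s, near s' β η) :
    ∃ β, ∀ η > 0, ∀ᶠ s in atTop, near s β η := by
  have key : ∀ η > 0, ∀ᶠ s in atTop, ∃ β, near s β η := fun η hη => by
    obtain ⟨ε, hε, h⟩ := small η hη
    filter_upwards [h, hw ε hε] with s h1 h2 using h1 h2
  obtain ⟨η0, hη0, h0⟩ := iso
  obtain ⟨R, hR⟩ := eventually_atTop.1 (h0.and (key η0 hη0))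
  obtain ⟨β, hβ⟩ := one_of_cover (A := Ici R) isPreconnected_Ici (fun s β => near s β η0)
    (fun s hs => (hR s hs).2) (fun s hs β β' hb => ((hR s hs).1 β hb).1 β')
    fun s hs β hb => ((hR s hs).1 β hb).2
  refine ⟨β, fun η hη => ?_⟩
  filter_upwards [key _ (lt_min hη hη0), eventually_ge_atTop R] with s ⟨γ, hγ⟩ hs
  rw [((hR s hs).1 β (hβ s hs)).1 γ (mono _ _ _ _ (min_le_right _ _) hγ)]
  exact mono _ _ _ _ (min_le_left _ _) hγ

theorem end_lim_bot [Nonempty C] {win : ℝ → ℝ} {near : ℝ → C → ℝ → Prop}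
    (hw : ∀ ε > 0, ∀ᶠ s in atBot, win s < ε)
    (mono : ∀ s β η η', η ≤ η' → near s β η → near s β η')
    (small : ∀ η > 0, ∃ ε > 0, ∀ᶠ s in atBot, win s < ε → ∃ β, near s β η)
    (iso : ∃ η > 0, ∀ᶠ s in atBot, ∀ β, near s β η →
      (∀ β', near s β' η → β = β') ∧ ∀ᶠ s' in 𝓝 s, near s' β η) :
    ∃ β, ∀ η > 0, ∀ᶠ s in atBot, near s β η := by
  obtain ⟨η0, hη0, h0⟩ := iso
  obtain ⟨β, hβ⟩ := end_lim_top (win := fun s => win (-s)) (near := fun s => near (-s))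
    (fun ε hε => tendsto_neg_atTop_atBot.eventually (hw ε hε)) (fun s => mono (-s))
    (fun η hη => (small η hη).imp fun ε h => ⟨h.1, tendsto_neg_atTop_atBot.eventually h.2⟩)
    ⟨η0, hη0, (tendsto_neg_atTop_atBot.eventually h0).mono fun s hs β hb =>
      ⟨(hs β hb).1, continuous_neg.continuousAt.eventually (hs β hb).2⟩⟩
  exact ⟨β, fun η hη => by simpa using tendsto_neg_atBot_atTop.eventually (hβ η hη)⟩

/-- finite energy makes the window energy small at the ends -/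
theorem win_small_top {f : ℝ → ℝ} {a : ℝ} (hf : MeasureTheory.IntegrableOn f (Ioi a)) (r : ℝ) :
    Tendsto (fun s => ∫ x in (s - r)..(s + r), f x) atTop (𝓝 0) := by
  have h1 := MeasureTheory.intervalIntegral_tendsto_integral_Ioi a hf
    (tendsto_atTop_add_const_right atTop r tendsto_id)
  have h2 := MeasureTheory.intervalIntegral_tendsto_integral_Ioi a hf
    (tendsto_atTop_add_const_right atTop (-r) tendsto_id)
  have h3 := h1.sub h2
  rw [sub_self] at h3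
  refine h3.congr' ?_
  filter_upwards [eventually_ge_atTop (a + |r|)] with s hs
  have hi : ∀ u, a ≤ u → IntervalIntegrable f MeasureTheory.volume a u := fun u hu =>
    (intervalIntegrable_iff_integrableOn_Ioc_of_le hu).2 (hf.mono_set Ioc_subset_Ioi_self)
  simp only [id, ← sub_eq_add_neg]
  exact intervalIntegral.integral_interval_sub_left (hi _ (by linarith [neg_abs_le r]))
    (hi _ (by linarith [le_abs_self r]))

theorem win_small_bot {f : ℝ → ℝ} {a : ℝ} (hf : MeasureTheory.IntegrableOn f (Iic a)) (r : ℝ) :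
    Tendsto (fun s => ∫ x in (s - r)..(s + r), f x) atBot (𝓝 0) := by
  have h1 := MeasureTheory.intervalIntegral_tendsto_integral_Iic a hf
    (tendsto_atBot_add_const_right atBot r tendsto_id)
  have h2 := MeasureTheory.intervalIntegral_tendsto_integral_Iic a hf
    (tendsto_atBot_add_const_right atBot (-r) tendsto_id)
  have h3 := h2.sub h1
  rw [sub_self] at h3
  refine h3.congr' ?_
  filter_upwards [eventually_le_atBot (a - |r|)] with s hs
  have hi : ∀ u, u ≤ a → IntervalIntegrable f MeasureTheory.volume u a := fun u hu =>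
    (intervalIntegrable_iff_integrableOn_Ioc_of_le hu).2 (hf.mono_set Ioc_subset_Iic_self)
  simp only [id, ← sub_eq_add_neg]
  have e1 := hi (s - r) (by linarith [neg_abs_le r])
  have e2 := hi (s + r) (by linarith [le_abs_self r])
  rw [← intervalIntegral.integral_add_adjacent_intervals (e1.trans e2.symm) e2]
  ring

end Crest.Agent.X212.Brk64
end

-- ▼ part X212/Brk64/En
section

/-!
# Breaking on long necks: energies given by densities on a space with a time function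
-/

namespace Crest.Agent.X212.Brk64

open Set Filter Topology MeasureTheory

variable {ν C X : Type*} [MeasurableSpace X] {μ : Measure X} {τ : X → ℝ} {f g : X → ℝ}
  {J S T : Set ℝ} {E s : ℝ}

variable (μ τ) in
/-- the integral over the times in `S` -/
noncomputable def eI (f : X → ℝ) (S : Set ℝ) : ℝ := ∫ x in τ ⁻¹' S, f x ∂μ

variable (μ τ) in
/-- the energy seen from the time `s` -/
noncomputable def wI (f : X → ℝ) (J : Set ℝ) (s : ℝ) : ℝ :=
  ∫ x in τ ⁻¹' J, Real.exp (-|τ x - s|) * f x ∂μ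

variable (μ τ) in
/-- a density of total mass `≤ E` over `J` -/
structure Gd (f : X → ℝ) (J : Set ℝ) (E : ℝ) : Prop where
  nn : ∀ x, 0 ≤ f x
  int : IntegrableOn f (τ ⁻¹' J) μ
  le : eI μ τ f J ≤ E

theorem exp_le_one' (a : ℝ) : Real.exp (-|a|) ≤ 1 := Real.exp_le_one_iff.2 (by simp)

theorem Gd.zero (hE : 0 ≤ E) : Gd μ τ 0 J E := ⟨fun _ => le_rfl, integrableOn_zero, by simpa [eI]⟩

theorem Gd.e_mono (h : Gd μ τ f J E) (h1 : S ⊆ T) (h2 : T ⊆ J) : eI μ τ f S ≤ eI μ τ f T :=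
  setIntegral_mono_set (h.int.mono_set (preimage_mono h2)) (Eventually.of_forall h.nn)
    (preimage_mono h1).eventuallyLE

theorem Gd.e_nn (h : Gd μ τ f J E) : 0 ≤ eI μ τ f S := integral_nonneg h.nn

theorem Gd.nonneg (h : Gd μ τ f J E) : 0 ≤ E := h.e_nn.trans h.le

theorem Gd.w_meas (h : Gd μ τ f J E) (hτ : Measurable τ) (s : ℝ) :
    AEStronglyMeasurable (fun x => Real.exp (-|τ x - s|) * f x) (μ.restrict (τ ⁻¹' J)) :=
  (by fun_prop : Measurable fun x => Real.exp (-|τ x - s|)).aestronglyMeasurable.mul h.int.1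

theorem Gd.w_bd (h : Gd μ τ f J E) (s : ℝ) (x : X) : ‖Real.exp (-|τ x - s|) * f x‖ ≤ f x := by
  rw [Real.norm_of_nonneg (mul_nonneg (Real.exp_pos _).le (h.nn x))]
  exact mul_le_of_le_one_left (h.nn x) (exp_le_one' _)

theorem Gd.w_int (h : Gd μ τ f J E) (hτ : Measurable τ) (s : ℝ) :
    IntegrableOn (fun x => Real.exp (-|τ x - s|) * f x) (τ ⁻¹' J) μ :=
  h.int.mono' (h.w_meas hτ s) (Eventually.of_forall (h.w_bd s))

theorem Gd.cpt (h : Gd μ τ f J E) (hτ : Measurable τ) (hJ : IsClosed J) {ε : ℝ} (hε : 0 < ε) :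
    IsCompact {s ∈ J | ε ≤ wI μ τ f J s} := by
  have h1 : Continuous (wI μ τ f J) := continuous_of_dominated (h.w_meas hτ)
    (fun s => Eventually.of_forall (h.w_bd s)) h.int (Eventually.of_forall fun x => by fun_prop)
  have h2 : Tendsto (wI μ τ f J) (cocompact ℝ) (𝓝 0) := by
    have : (cocompact ℝ).IsCountablyGenerated := by rw [cocompact_eq_atBot_atTop]; infer_instance
    have := tendsto_integral_filter_of_dominated_convergence (l := cocompact ℝ)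
      (μ := μ.restrict (τ ⁻¹' J)) (F := fun s x => Real.exp (-|τ x - s|) * f x) (f := fun _ => 0) f
      (Eventually.of_forall (h.w_meas hτ))
      (Eventually.of_forall fun s => Eventually.of_forall (h.w_bd s)) h.int
      (Eventually.of_forall fun x => by
        rw [← zero_mul (f x)]
        refine (Real.tendsto_exp_atBot.comp (tendsto_neg_atTop_atBot.comp ?_)).mul_const _
        exact tendsto_dist_left_cocompact_atTop (τ x))
    rw [integral_zero] at this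
    exact this
  obtain ⟨K, hK, h3⟩ := mem_cocompact.1 (h2.eventually (gt_mem_nhds hε))
  exact hK.of_isClosed_subset (hJ.inter (isClosed_le continuous_const h1)) fun s hs =>
    by_contra fun e => absurd (h3 e) (not_lt.2 hs.2)

theorem Gd.w_le (h : Gd μ τ f J E) (hτ : Measurable τ) (hS : MeasurableSet S) (h1 : S ⊆ J) {ρ : ℝ}
    (h2 : Ioo (s - ρ) (s + ρ) ⊆ S) : wI μ τ f J s ≤ eI μ τ f S + Real.exp (-ρ) * E := by
  have i1 := h.int.indicator (hτ hS)
  calc _ ≤ ∫ x in τ ⁻¹' J, ((τ ⁻¹' S).indicator f x + Real.exp (-ρ) * f x) ∂μ := by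
        refine integral_mono (h.w_int hτ s) (i1.add (h.int.const_mul _)) fun x => ?_
        have h0 := h.nn x
        by_cases hx : x ∈ τ ⁻¹' S
        · simp only [indicator_of_mem hx]
          nlinarith [exp_le_one' (τ x - s), Real.exp_pos (-ρ)]
        · simp only [indicator_of_notMem hx, zero_add]
          refine mul_le_mul_of_nonneg_right (Real.exp_le_exp.2 (neg_le_neg ?_)) h0
          by_contra e
          rw [not_le, abs_lt] at e
          exact hx (h2 ⟨by linarith, by linarith⟩)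
    _ ≤ _ := by
        rw [integral_add i1 (h.int.const_mul _), integral_const_mul, setIntegral_indicator (hτ hS),
          inter_eq_right.2 (preimage_mono h1)]
        exact add_le_add le_rfl (mul_le_mul_of_nonneg_left h.le (Real.exp_pos _).le)

theorem Gd.le_w (h : Gd μ τ f J E) (hτ : Measurable τ) {L : ℝ} (h1 : Ioo (s - L) (s + L) ⊆ J) :
    Real.exp (-L) * eI μ τ f (Ioo (s - L) (s + L)) ≤ wI μ τ f J s := by
  rw [eI, ← integral_const_mul]
  refine (setIntegral_mono_on ((h.int.mono_set (preimage_mono h1)).const_mul _)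
    ((h.w_int hτ s).mono_set (preimage_mono h1)) (hτ measurableSet_Ioo) fun x hx => ?_).trans
    (setIntegral_mono_set (h.w_int hτ s) (Eventually.of_forall fun x =>
      mul_nonneg (Real.exp_pos _).le (h.nn x)) (preimage_mono h1).eventuallyLE)
  exact mul_le_mul_of_nonneg_right (Real.exp_le_exp.2 (neg_le_neg
    (abs_le.2 ⟨by linarith [hx.1], by linarith [hx.2]⟩))) (h.nn x)

theorem Nk.icc_sub (N : Nk ν) {R r : ℝ} {n : ν} (h : s ∈ N.J (R + r) n) :
    Icc (s - r) (s + r) ⊆ N.J R n := fun _ hx =>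
  N.lip h (abs_le.2 ⟨by linarith [hx.1], by linarith [hx.2]⟩)

theorem ev_exp {δ : ℝ} (hδ : 0 < δ) (E : ℝ) : ∀ᶠ R in atTop, Real.exp (-R) * E < δ := by
  have := Real.tendsto_exp_neg_atTop_nhds_zero.mul_const E
  rw [zero_mul] at this
  exact this.eventually (gt_mem_nhds hδ)

/-- a statement about deep times with small energy follows from its form for ultrafilters -/
theorem Nk.small_of (N : Nk ν) {𝒰 : Ultrafilter ν} {win : ν → ℝ → ℝ} {P : ν → ℝ → Prop}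
    (h : ∀ 𝒱 : Ultrafilter (ν × ℝ), Tendsto (Prod.fst : ν × ℝ → ν) 𝒱 𝒰 →
      (∀ R, ∀ᶠ p : ν × ℝ in 𝒱, p.2 ∈ N.J R p.1) →
      (∀ ε > 0, ∀ᶠ p : ν × ℝ in 𝒱, win p.1 p.2 < ε) → ∀ᶠ p : ν × ℝ in 𝒱, P p.1 p.2) :
    ∃ ε > 0, ∃ R, ∀ᶠ n in 𝒰, ∀ s ∈ N.J R n, win n s < ε → P n s := by
  by_contra hc
  let A : ℕ → Set (ν × ℝ) := fun m =>
    {p | p.2 ∈ N.J m p.1 ∧ win p.1 p.2 < 1 / ((m : ℝ) + 1) ∧ ¬P p.1 p.2}
  have anti : Antitone A := fun m m' hm p hp => ⟨N.anti (Nat.cast_le.2 hm) _ hp.1,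
    hp.2.1.trans_le (Nat.one_div_le_one_div hm), hp.2.2⟩
  have ne : ∀ m, (comap Prod.fst (𝒰 : Filter ν) ⊓ 𝓟 (A m)).NeBot := fun m => by
    refine inf_principal_neBot_iff.2 fun U ⟨V, hV, hU⟩ => ?_
    obtain ⟨n, h1, h2⟩ := ((Ultrafilter.eventually_not.2 fun e =>
      hc ⟨_, Nat.one_div_pos_of_nat (n := m), m, e⟩).and hV).exists
    push Not at h1
    obtain ⟨s, h3⟩ := h1
    exact ⟨(n, s), hU h2, h3⟩
  have : Nonempty (ν × ℝ) := (ne 0).nonempty
  have := iInf_neBot_of_directed (Antitone.directed_ge (f := fun m =>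
    comap Prod.fst (𝒰 : Filter ν) ⊓ 𝓟 (A m))
    fun _ _ hm => inf_le_inf_left _ (principal_mono.2 (anti hm))) ne
  obtain ⟨𝒱, h𝒱⟩ := Ultrafilter.exists_le (⨅ m, comap Prod.fst (𝒰 : Filter ν) ⊓ 𝓟 (A m))
  have h1 := fun m => le_inf_iff.1 (h𝒱.trans (iInf_le _ m))
  have h2 : ∀ m, ∀ᶠ p : ν × ℝ in 𝒱, p ∈ A m := fun m => le_principal_iff.1 (h1 m).2
  obtain ⟨p, h3, h4⟩ := ((h 𝒱 (tendsto_iff_comap.2 (h1 0).1)
    (fun R => (h2 ⌈R⌉₊).mono fun p hp => N.anti (Nat.le_ceil R) _ hp.1) fun ε hε =>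
      let ⟨m, hm⟩ := exists_nat_one_div_lt hε
      (h2 m).mono fun p hp => hp.2.1.trans hm).and (h2 0)).exists
  exact h4.2.2 h3

/-- **Broken trajectories**, for an energy density. -/
theorem Nk.break_en [Finite C] [Nonempty C] (N : Nk ν) {𝒰 : Ultrafilter ν} (hτ : Measurable τ)
    {f : ν → X → ℝ} {near : ν → ℝ → C → ℝ → Prop} (hf : ∀ᶠ n in 𝒰, Gd μ τ (f n) (N.J 0 n) E)
    (mono : ∀ n s β η η', η ≤ η' → near n s β η → near n s β η')
    (iso : ∃ η > 0, ∃ R, ∀ᶠ n in 𝒰, ∀ s ∈ N.J R n, ∀ β, near n s β η →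
      (∀ β', near n s β' η → β = β') ∧ ∀ᶠ s' in 𝓝 s, near n s' β η)
    (small : ∀ η > 0, ∀ 𝒱 : Ultrafilter (ν × ℝ), Tendsto (Prod.fst : ν × ℝ → ν) 𝒱 𝒰 →
      (∀ R, ∀ᶠ p : ν × ℝ in 𝒱, p.2 ∈ N.J R p.1) →
      (∀ L, Tendsto (fun p : ν × ℝ => eI μ τ (f p.1) (Ioo (p.2 - L) (p.2 + L))) 𝒱 (𝓝 0)) →
      ∀ᶠ p : ν × ℝ in 𝒱, ∃ β, near p.1 p.2 β η)
    (dec : ∃ η > 0, ∀ δ > 0, ∀ L, ∃ R, ∀ᶠ n in 𝒰, ∀ s β,
      (∀ s' ∈ Icc (s - R) (s + R), near n s' β η) → eI μ τ (f n) (Ioo (s - L) (s + L)) ≤ δ) :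
    ∃ (win : ν → ℝ → ℝ) (k : ℕ) (t : Fin k → ν → ℝ) (β : Fin (k + 1) → C),
      N.Cen 𝒰 win k t ∧ N.Chain 𝒰 near t β ∧
      ∀ i, ∃ ε > 0, ∃ L, ∀ᶠ n in 𝒰, ε ≤ eI μ τ (f n) (Ioo (t i n - L) (t i n + L)) := by
  classical
  have hE : 0 ≤ E := hf.exists.choose_spec.nonneg
  let win : ν → ℝ → ℝ := fun n => wI μ τ (if Gd μ τ (f n) (N.J 0 n) E then f n else 0) (N.J 0 n)
  have hw : ∀ᶠ n in 𝒰, Gd μ τ (f n) (N.J 0 n) E ∧ win n = wI μ τ (f n) (N.J 0 n) :=
    hf.mono fun n hn => ⟨hn, by simp only [win, if_pos hn]⟩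
  have hsel : N.Sel 𝒰 win := Or.inr fun n ε hε => by
    refine Gd.cpt (E := E) ?_ hτ (N.cl 0 n) hε
    split_ifs with h
    exacts [h, Gd.zero hE]
  have sub : ∀ {n s R}, s ∈ N.J (0 + R) n → Ioo (s - R) (s + R) ⊆ N.J 0 n := fun h =>
    Ioo_subset_Icc_self.trans (N.icc_sub h)
  have hn : N.Near 𝒰 win near := ⟨mono, fun η hη => N.small_of fun 𝒱 h1 h2 h3 => by
    refine small η hη 𝒱 h1 h2 fun L => tendsto_order.2 ⟨fun a ha => ?_, fun a ha => ?_⟩
    · exact (h1.eventually hf).mono fun p hp => ha.trans_le hp.e_nn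
    · filter_upwards [h1.eventually hw, h2 (0 + L), h3 _ (mul_pos (Real.exp_pos (-L)) ha)]
        with p a1 a2 a3
      rw [a1.2] at a3
      exact lt_of_mul_lt_mul_left ((a1.1.le_w hτ (sub a2)).trans_lt a3) (Real.exp_pos _).le, iso⟩
  have car : ∀ s, N.Deep 𝒰 s → ∀ ε > 0, (∀ᶠ n in 𝒰, ε ≤ win n (s n)) →
      ∃ L, ∀ᶠ n in 𝒰, ε / 2 ≤ eI μ τ (f n) (Ioo (s n - L) (s n + L)) := fun s hs ε hε h => by
    obtain ⟨L, hL⟩ := (ev_exp (half_pos hε) E).exists
    refine ⟨L, ?_⟩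
    filter_upwards [h, hw, hs (0 + L)] with n a1 a2 a3
    rw [a2.2] at a1
    linarith [a2.1.w_le hτ measurableSet_Ioo (sub a3) Subset.rfl]
  obtain ⟨η1, p1, H1⟩ := dec
  obtain ⟨η2, p2, R2, H2⟩ := iso
  obtain ⟨ε0, p0, R0, H0⟩ := hn.small _ (lt_min p1 p2)
  refine (N.break (en := fun n s t => eI μ τ (f n) (Ioc s t)) hE
    (half_pos p0) (hf.mono fun n hn => ⟨fun s t t' u hs hu h2 h3 h4 => ?_, fun s t hs ht _ =>
      ⟨hn.e_nn, (hn.e_mono (Ioc_subset_Icc_self.trans ((N.oc 0 n).out hs ht)) Subset.rfl).trans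
        hn.le⟩⟩) hsel hn fun s hs ⟨ε, hε, hc⟩ => ?_).elim fun k ⟨t, β, _, h1, h2⟩ =>
    ⟨win, k, t, β, h1, h2, fun i => let ⟨ε, hε, h⟩ := h1.carry i
      ⟨_, half_pos hε, car _ (h1.deep i) ε hε h⟩⟩
  · have h5 := Ioc_subset_Icc_self.trans ((N.oc 0 n).out hs hu)
    have h6 : Ioc s t ⊆ Ioc s u := Ioc_subset_Ioc_right (h3.trans h4)
    have h7 : Ioc t' u ⊆ Ioc s u := Ioc_subset_Ioc_left (h2.trans h3)
    refine le_trans (le_of_eq ?_) (hn.e_mono (union_subset h6 h7) h5)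
    simp only [eI, preimage_union]
    exact (setIntegral_union ((Ioc_disjoint_Ioc_of_le h3).preimage τ) (hτ measurableSet_Ioc)
      (hn.int.mono_set (preimage_mono (h6.trans h5)))
      (hn.int.mono_set (preimage_mono (h7.trans h5)))).symm
  · obtain ⟨L, hL⟩ := car s hs ε hε hc
    obtain ⟨R, hR⟩ := H1 (ε / 4) (by positivity) L
    obtain ⟨ρ, hρ, h0⟩ := ((ev_exp (half_pos p0) E).and (eventually_ge_atTop |R|)).exists
    have a0 := abs_nonneg R
    have a1 := le_abs_self R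
    refine ⟨ρ + |R|, by linarith, ?_⟩
    filter_upwards [hL, hR, H0, H2, hw, hs (0 + (ρ + |R|)), hs (max R0 R2 + R)]
      with n b1 b2 b3 b4 b5 b6 b7
    by_contra b8
    have c1 := N.icc_sub b7
    have c2 : ∀ s' ∈ Icc (s n - R) (s n + R), ∃ γ, near n s' γ (min η1 η2) := fun s' h' => by
      refine b3 s' (N.anti (le_max_left _ _) n (c1 h')) ?_
      rw [b5.2]
      have := b5.1.w_le hτ (s := s') (ρ := ρ) measurableSet_Ioc
        (Ioc_subset_Icc_self.trans (N.icc_sub b6))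
        fun x hx => ⟨by linarith [hx.1, h'.1], by linarith [hx.2, h'.2]⟩
      linarith [not_le.1 b8]
    have c3 := fun s' h' => b4 s' (N.anti (le_max_right _ _) n (c1 h'))
    obtain ⟨γ, hγ⟩ := one_of_cover (A := Icc (s n - R) (s n + R)) isPreconnected_Icc
      (fun s γ => near n s γ η2) (fun s' h' => (c2 s' h').imp fun _ => mono _ _ _ _ _
        (min_le_right _ _)) (fun s' h' γ γ' h => (c3 s' h' γ h).1 γ') fun s' h' γ h => (c3 s' h' γ h).2
    have := b2 (s n) γ fun s' h' => by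
      obtain ⟨γ', h''⟩ := c2 s' h'
      rw [(c3 s' h' γ (hγ s' h')).1 γ' (mono _ _ _ _ _ (min_le_right _ _) h'')]
      exact mono _ _ _ _ _ (min_le_left _ _) h''
    linarith

/-! ### integrals over the gaps -/

theorem int_exp_le {d : ℝ} (hd : 0 < d) (a b : ℝ) :
    ∫⁻ s in Icc a b, ENNReal.ofReal (Real.exp (-d * (s - a)) + Real.exp (-d * (b - s))) ≤
      ENNReal.ofReal (2 / d) := by
  rcases lt_or_ge b a with h | h
  · simp [Icc_eq_empty_of_lt h]
  rw [← ofReal_integral_eq_lintegral_ofReal (Continuous.integrableOn_Icc (by fun_prop))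
    (Eventually.of_forall fun _ => by positivity), integral_Icc_eq_integral_Ioc,
    ← intervalIntegral.integral_of_le h]
  refine ENNReal.ofReal_le_ofReal ?_
  rw [intervalIntegral.integral_eq_sub_of_hasDerivAt (f := fun s =>
    (Real.exp (-d * (b - s)) - Real.exp (-d * (s - a))) / d) (fun s _ => ?_)
    (Continuous.intervalIntegrable (by fun_prop) _ _)]
  · rw [← sub_div]
    refine div_le_div_of_nonneg_right ?_ hd.le
    simp only [sub_self, mul_zero, Real.exp_zero]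
    linarith [Real.exp_pos (-d * (b - a))]
  · have h1 := (((hasDerivAt_id s).const_sub b).const_mul (-d)).exp
    have h2 := (((hasDerivAt_id s).sub_const a).const_mul (-d)).exp
    refine ((h1.sub h2).div_const d).congr_deriv ?_
    simp only [id]
    field_simp
    ring

/-- bounds over compact intervals give a bound over a closed interval -/
theorem lint_oc {F : X → ENNReal} {c : ENNReal} (hT : IsClosed T) (hc : T.OrdConnected)
    (h : ∀ a b, Icc a b ⊆ T → ∫⁻ x in τ ⁻¹' Icc a b, F x ∂μ ≤ c) : ∫⁻ x in τ ⁻¹' T, F x ∂μ ≤ c := by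
  have e : τ ⁻¹' T = ⋃ m : ℕ, τ ⁻¹' (T ∩ Icc (-(m : ℝ)) m) := by
    ext x
    simp only [mem_iUnion, mem_preimage, mem_inter_iff, exists_and_left, mem_Icc, ← abs_le]
    exact ⟨fun h => ⟨h, _, Nat.le_ceil _⟩, fun h => h.1⟩
  rw [e, setLIntegral_iUnion_of_directed _ (Monotone.directed_le fun m m' hm => preimage_mono
    (inter_subset_inter_right _ (Icc_subset_Icc (by simpa) (by simpa))))]
  refine iSup_le fun m => ?_
  rcases (T ∩ Icc (-(m : ℝ)) m).eq_empty_or_nonempty with h0 | h0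
  · simp [h0]
  have := eq_Icc_of_connected_compact ⟨h0, (hc.inter ordConnected_Icc).isPreconnected⟩
    (isCompact_Icc.inter_left hT)
  rw [this]
  exact h _ _ (this ▸ inter_subset_left)

theorem Nk.gap_cl (N : Nk ν) {k : ℕ} (t : Fin k → ν → ℝ) (g : Fin (k + 1)) (R : ℝ) (n : ν) :
    IsClosed (N.Gap t g R n) := by
  refine (N.cl R n).inter (?_ : IsClosed {s | ∀ i : Fin k, _})
  simp only [ofPred_forall, ofPred_and]
  exact isClosed_iInter fun i => (isClosed_iInter fun _ => isClosed_Ici).inter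
    (isClosed_iInter fun _ => isClosed_le (by fun_prop) continuous_const)

theorem Nk.gap_lip (N : Nk ν) {k : ℕ} {t : Fin k → ν → ℝ} {g : Fin (k + 1)} {R r s' : ℝ} {n : ν}
    (h : s ∈ N.Gap t g (R + r) n) (h' : |s' - s| ≤ r) : s' ∈ N.Gap t g R n :=
  ⟨N.lip h.1 h', fun i => ⟨fun e => by linarith [(h.2 i).1 e, (abs_le.1 h').1],
    fun e => by linarith [(h.2 i).2 e, (abs_le.1 h').2]⟩⟩

/-- away from the centres one is in a gap -/
theorem Nk.mem_gap (N : Nk ν) {k : ℕ} {t : Fin k → ν → ℝ} {R : ℝ} {n : ν}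
    (ht : ∀ i j, i < j → t i n ≤ t j n) (h : s ∈ N.J R n)
    (h' : ∀ i, s ∉ Ioo (t i n - R) (t i n + R)) : ∃ g, s ∈ N.Gap t g R n := by
  classical
  have key : ∀ i, t i n + R ≤ s ∨ s + R ≤ t i n := fun i => by
    by_contra e
    push Not at e
    exact h' i ⟨by linarith [e.2], e.1⟩
  by_cases h0 : ∃ i, s + R ≤ t i n
  · have h1 : (Finset.univ.filter fun i => s + R ≤ t i n).Nonempty :=
      h0.imp fun i h => by simpa using h
    have h2 := Finset.min'_mem _ h1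
    refine ⟨(Finset.min' _ h1).castSucc, h, fun i => ⟨fun e => (key i).resolve_right fun e' =>
      absurd (Finset.min'_le _ i (by simpa using e')) (not_le.2 (Fin.castSucc_lt_castSucc_iff.1 e)),
      fun e => ?_⟩⟩
    rcases (Fin.castSucc_le_castSucc_iff.1 e).eq_or_lt with e | e
    · exact e ▸ (Finset.mem_filter.1 h2).2
    · exact (Finset.mem_filter.1 h2).2.trans (ht _ _ e)
  · exact ⟨Fin.last k, h, fun i => ⟨fun _ => (key i).resolve_right fun e => h0 ⟨i, e⟩,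
      fun e => absurd e (not_le.2 (Fin.castSucc_lt_last i))⟩⟩

/-- the integral over the neck is the sum of the integrals over the windows, up to the gaps -/
theorem Nk.int_split (N : Nk ν) (hτ : Measurable τ) {k : ℕ} {t : Fin k → ν → ℝ} {R δ : ℝ} {n : ν}
    (hR : 0 < R) (hδ : 0 ≤ δ) (ht : ∀ i j, i < j → t i n + R < t j n - R)
    (hd : ∀ i, t i n ∈ N.J (R + R) n) (hm : AEStronglyMeasurable g (μ.restrict (τ ⁻¹' N.J R n)))
    (hw : ∀ i, IntegrableOn g (τ ⁻¹' Icc (t i n - R) (t i n + R)) μ)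
    (hg : ∀ j, ∫⁻ x in τ ⁻¹' N.Gap t j R n, ‖g x‖ₑ ∂μ ≤ ENNReal.ofReal δ) :
    IntegrableOn g (τ ⁻¹' N.J R n) μ ∧
      |eI μ τ g (N.J R n) - ∑ i, eI μ τ g (Icc (t i n - R) (t i n + R))| ≤ (k + 1) * δ := by
  set W := ⋃ i, τ ⁻¹' Icc (t i n - R) (t i n + R)
  have h1 : W ⊆ τ ⁻¹' N.J R n := iUnion_subset fun i => preimage_mono (N.icc_sub (hd i))
  have mW : MeasurableSet W := MeasurableSet.iUnion fun _ => hτ measurableSet_Icc
  have h2 : ∫⁻ x in τ ⁻¹' N.J R n \ W, ‖g x‖ₑ ∂μ ≤ ENNReal.ofReal ((k + 1) * δ) := by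
    refine (lintegral_mono_set (t := ⋃ j, τ ⁻¹' N.Gap t j R n) fun x hx => mem_iUnion.2
      (N.mem_gap (fun i j e => by linarith [ht i j e]) hx.1 fun i e => hx.2 (mem_iUnion.2
        ⟨i, Ioo_subset_Icc_self e⟩))).trans ((lintegral_iUnion_le _ _).trans ?_)
    rw [tsum_fintype]
    refine (Finset.sum_le_card_nsmul _ _ _ fun j _ => hg j).trans (le_of_eq ?_)
    rw [ENNReal.ofReal_mul (by positivity), ← Nat.cast_succ, ENNReal.ofReal_natCast]
    simp
  have h3 : IntegrableOn g (τ ⁻¹' N.J R n \ W) μ :=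
    ⟨hm.mono_set sdiff_subset, h2.trans_lt ENNReal.ofReal_lt_top⟩
  have h4 : IntegrableOn g W μ := integrableOn_finite_iUnion.2 hw
  have h5 : IntegrableOn g (τ ⁻¹' N.J R n) μ := by
    rw [← sdiff_union_of_subset h1]; exact h3.union h4
  refine ⟨h5, ?_⟩
  have dj : ∀ i j, i < j → Disjoint (Icc (t i n - R) (t i n + R)) (Icc (t j n - R) (t j n + R)) :=
    fun i j e => disjoint_left.2 fun _ a b => by linarith [ht i j e, a.2, b.1]
  have h6 : ∑ i, eI μ τ g (Icc (t i n - R) (t i n + R)) = ∫ x in W, g x ∂μ :=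
    (integral_iUnion_fintype (fun _ => hτ measurableSet_Icc) (fun i j e =>
      Disjoint.preimage τ (e.lt_or_gt.elim (dj i j) fun e => (dj j i e).symm)) hw).symm
  rw [h6, eI, ← setIntegral_sdiff mW h5 h1, ← Real.norm_eq_abs]
  refine (norm_integral_le_lintegral_norm _).trans (ENNReal.toReal_le_of_le_ofReal
    (by positivity) ?_)
  simpa only [ofReal_norm] using h2

/-- a cluster point of admissible values -/
theorem exists_clu {Z : Type*} [PseudoMetricSpace Z] [CompactSpace Z] {Q : ℕ → Z → Prop}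
    (h : ∀ m, ∃ z, Q m z) : ∃ z0, ∀ δ > 0, ∀ m0, ∃ m, m0 ≤ m ∧ ∃ z, Q m z ∧ dist z0 z ≤ δ := by
  choose z hz using h
  obtain ⟨z0, h0⟩ := exists_clusterPt_of_compactSpace (map z atTop)
  refine ⟨z0, fun δ hδ m0 => ?_⟩
  obtain ⟨m, h1, h2⟩ := ((mapClusterPt_iff_frequently.1 h0 _
    (Metric.closedBall_mem_nhds z0 hδ)).and_eventually
    (eventually_ge_atTop m0)).exists
  exact ⟨m, h2, _, hz m, Metric.mem_closedBall'.1 h1⟩

/-- a bounded piece of a closed interval is a compact interval -/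
theorem icc_piece (hT : IsClosed T) (hc : T.OrdConnected) (m : ℝ) :
    ∃ a b, T ∩ Icc (-m) m = Icc a b := by
  rcases (T ∩ Icc (-m) m).eq_empty_or_nonempty with h0 | h0
  · exact ⟨1, 0, by rw [h0, Icc_eq_empty_of_lt one_pos]⟩
  · exact ⟨_, _, eq_Icc_of_connected_compact ⟨h0, (hc.inter ordConnected_Icc).isPreconnected⟩
      (isCompact_Icc.inter_left hT)⟩

end Crest.Agent.X212.Brk64
end

-- ▼ part X212/Bki64/Eng

/-!
# X212, BRKI (helper64), part 5: the densities `en` and `kd` of close configurations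
-/

set_option autoImplicit false
set_option linter.unusedSectionVars false
noncomputable section
open scoped Manifold ContDiff Topology InnerProductSpace
open MeasureTheory Set Function Filter

namespace Crest.Agent.X212.Bki64
open An Sob92 Cyf70 Neck67 Cmp73 Pj41 Eqv71 Tmp64 Nd18 Std94
open Wz78 (curv nab SA)
open Dgr80 (en)

theorem inner_diff {V : Type*} [NormedAddCommGroup V] [InnerProductSpace ℝ V] {a a' b b' : V}
    {K L δ : ℝ} (h1 : ‖a - a'‖ ≤ L * δ) (h2 : ‖b - b'‖ ≤ L * δ) (h3 : ‖a'‖ ≤ K) (h4 : ‖b'‖ ≤ K)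
    (hL : 0 ≤ L) (hδ : δ ≤ 1) : |⟪a, b⟫_ℝ - ⟪a', b'⟫_ℝ| ≤ L * (L + 2 * K) * δ := by
  have e : ⟪a, b⟫_ℝ - ⟪a', b'⟫_ℝ = ⟪a - a', b - b'⟫_ℝ + ⟪a - a', b'⟫_ℝ + ⟪a', b - b'⟫_ℝ := by
    simp only [inner_sub_left, inner_sub_right]; ring
  have h0 := (norm_nonneg _).trans h1
  have h5 : ‖b - b'‖ ≤ L := h2.trans (mul_le_of_le_one_right hL hδ)
  rw [e]
  refine (abs_add_three _ _ _).trans ?_
  linarith [(abs_real_inner_le_norm _ _).trans (mul_le_mul h1 h5 (norm_nonneg _) h0),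
    (abs_real_inner_le_norm _ _).trans (mul_le_mul h1 h4 (norm_nonneg _) h0),
    (abs_real_inner_le_norm _ _).trans
      (mul_le_mul h3 h2 (norm_nonneg _) ((norm_nonneg _).trans h3))]

section gen
variable {E : Type} [NormedAddCommGroup E] [NormedSpace ℝ E] [FiniteDimensional ℝ E]
  [MeasurableSpace E] [BorelSpace E]
  {HM : Type} [TopologicalSpace HM] {I : ModelWithCorners ℝ E HM}
  {M : Type} [TopologicalSpace M] [ChartedSpace HM M] [IsManifold I ∞ M]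
  [MeasurableSpace M] {ι : Type} [Fintype ι] {lam : Type} [Fintype lam] {r r' : ℕ}
  {B : Base M ι lam} {G : Geo I M ι lam} {F : Fr I M ι} {c : Cfg M ι lam r} {c' : Cfg M ι lam r'}
  {u : M → CL c.m.V c'.m.V} {O K : Set M} {x : M} {ζ : Circle} {δ : ℝ}

theorem fsm_pg (hB : B.OK I) {m : Md M ι lam} (hO : IsOpen O) (H : OKOn I B m O) (hx : x ∈ O) :
    FSm I m.pg x :=
  (Kl.pgF (K := smAt I x) contMDiffAt_const (fun a => H.sρ a x hx) (H.sj x hx)).congr_of_eventuallyEq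
    ((hO.eventually_mem hx).mono fun _ hy => pg_eq hB (pmx_on H hy))

theorem fsm_Fg (hB : B.OK I) (hO : IsOpen O) (h : AdmOn c B G O) (hx : x ∈ O) (s : ι × ι) :
    FSm I (fun y => c.m.Fg G.F c.W y s) x :=
  SA.app (fsm_pg hB hO h.ok hx)
    (SA.clm hsL ((Wz78.frm G.F).sCurv (fun a => h.conn.sm a x hx) _ _))

theorem fsm_nab (h : AdmOn c B G O) (hx : x ∈ O) (a : ι) : FSm I (nab I G.F.e c.W a c.Φ) x :=
  (dv_smoothAt (G.F.sm a x) (h.sm x hx)).add ((h.conn.sm a x hx).clm_apply (h.sm x hx))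

theorem fsm_inner {V : Type} [NormedAddCommGroup V] [InnerProductSpace ℝ V] {f g : M → V}
    (hf : FSm I f x) (hg : FSm I g x) : FSm I (fun y => ⟪f y, g y⟫_ℝ) x :=
  ((innerSL ℝ).contDiff.contDiffAt.comp_contMDiffAt hf).clm_apply hg

variable (F c) in
/-- products of curvature components -/
def qF (s t : ι × ι) (x : M) : ℝ := ⟪c.m.Fg F c.W x s, c.m.Fg F c.W x t⟫_ℝ

variable (F c) in
/-- squares of the covariant derivatives of the spinor -/
def qN (a : ι) (x : M) : ℝ := ⟪nab I F.e c.W a c.Φ x, nab I F.e c.W a c.Φ x⟫_ℝ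

theorem kd_q (x : M) :
    c.m.kd B F c.W x = -(128 * Real.pi ^ 2)⁻¹ * ∑ s, ∑ t, B.st x s t * qF F c s t x :=
  Loc66.kd_eq _ _ _ _

theorem fsm_st (hB : B.OK I) (s t : ι × ι) : FSm I (fun y => B.st y s t) x :=
  FSm.mul' (hB.so _ _ _ _ x) (contMDiffAt_const (c := (2 : ℝ)⁻¹))

theorem fsm_kd (hB : B.OK I) (hO : IsOpen O) (h : AdmOn c B G O) (hx : x ∈ O) :
    FSm I (c.m.kd B G.F c.W) x := by
  rw [funext kd_q]
  exact FSm.mul' contMDiffAt_const (FSm.sum' fun s _ => FSm.sum' fun t _ =>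
    FSm.mul' (fsm_st hB s t) (fsm_inner (fsm_Fg hB hO h hx s) (fsm_Fg hB hO h hx t)))

variable (F c c' u) in
/-- the transported connection -/
def Wp : c'.m.Cn := fun a x => c'.W a x - dA F c c' u a x

theorem par_Wp (hu : Iso0 I c.m c'.m O u) (hO : IsOpen O) (hc : AdmOn c B G O) :
    Par0 G.F c.W (Wp G.F c c' u) O u := fun x hx a => by
  rw [Wp, ContinuousLinearMap.sub_comp, dA_u hu hO hc hx, cov]; abel

theorem qF_eq (hu : Iso0 I c.m c'.m O u) (hO : IsOpen O) (hc : AdmOn c B G O)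
    (hc' : AdmOn c' B G O) (hx : x ∈ O) (s t : ι × ι) : qF G.F c s t x =
      ⟪c'.m.Fg G.F (Wp G.F c c' u) x s, c'.m.Fg G.F (Wp G.F c c' u) x t⟫_ℝ := by
  have := Loc66.Fg_loc (W' := Wp G.F c c' u) hu hO hc.ok hc'.ok (fun a => hc.conn.sm a x hx) (fun a =>
    (hc'.conn.sm a x hx).sub (fsm_dA (hu.su x hx) (hc.conn.sm a x hx) (hc'.conn.sm a x hx)))
    (par_Wp hu hO hc) hx
  rw [this, this, Loc66.inner_cj_g hu hx _ (Loc66.Fg_mem _ _ _ _), qF]

theorem qN_eq (hu : Iso0 I c.m c'.m O u) (hO : IsOpen O) (hc : AdmOn c B G O) (hx : x ∈ O) (a : ι) :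
    qN G.F c a x = ⟪nab I G.F.e (Wp G.F c c' u) a (fun y => c'.Φ y + dP c c' u ζ y) x,
      nab I G.F.e (Wp G.F c c' u) a (fun y => c'.Φ y + dP c c' u ζ y) x⟫_ℝ := by
  have s1 : FSm I (fun y => csB c.m.J ζ (c.Φ y)) x := SA.clm _ (hc.sm x hx)
  have e1 : nab I G.F.e (Wp G.F c c' u) a (fun y => c'.Φ y + dP c c' u ζ y) x =
      u x (nab I G.F.e c.W a (fun y => csB c.m.J ζ (c.Φ y)) x) := by
    rw [← Itw.nab (fun a => sub_eq_zero.1 (par_Wp hu hO hc x hx a)) (hu.su x hx).md s1.md]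
    refine Wz78.nab_congr a ((hO.eventually_mem hx).mono fun y hy => ?_)
    simp only [dP, add_sub_cancel, csB_apply, map_cs (hu.J y hy).symm]
  have e2 : nab I G.F.e c.W a (fun y => csB c.m.J ζ (c.Φ y)) x =
      cs c.m.J ζ (nab I G.F.e c.W a c.Φ x) := by
    rw [Wz78.nab_app' (T := fun _ => csB c.m.J ζ) a contMDiffAt_const (hc.sm x hx), csB_apply,
      Wz78.nabE, dv_const, Pi.zero_apply, zero_add, sub_apply, mul_apply_eq_comp, mul_apply_eq_comp,
      csB_apply, csB_apply, map_cs (hc.conn.J a x hx).symm, sub_self, zero_add]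
  have e3 : c.m.p x (nab I G.F.e c.W a c.Φ x) = nab I G.F.e c.W a c.Φ x := by
    have := Wz78.nab_app' (e := G.F.e) (A := c.W) a (hc.ok.sp x hx) (hc.sm x hx)
    rw [show Wz78.nabE I G.F.e c.W a c.m.p x = 0 from hc.conn.par a x hx, zero_apply, zero_add,
      Wz78.nab_congr a ((hO.eventually_mem hx).mono fun y hy => hc.pΦ hy)] at this
    exact this.symm
  rw [e1, e2, (hu.iso x hx).inner, map_cs (hc.ok.Jp x hx).symm, e3, qN,
    real_inner_self_eq_norm_sq, real_inner_self_eq_norm_sq, Mp86.norm_cs hc.ok.Jsq hc.ok.Jsk,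
    Circle.norm_coe, one_mul]

theorem curv_diff {κ : Type} [Fintype κ] {W α : ι → M → En κ} {C : ℝ} (hW : ∀ a, FSm I (W a) x)
    (hα : ∀ a, FSm I (α a) x) (h1 : ∀ a, ‖W a x‖ ≤ C) (h2 : ∀ a b k, ‖F.c a b k x‖ ≤ C)
    (h3 : ∀ a, ‖α a x‖ ≤ δ) (h4 : ∀ a b, ‖F.D a (α b) x‖ ≤ δ) (hδ : δ ≤ 1) (a b : ι) :
    ‖curv I F.e F.c (fun a y => W a y - α a y) a b x - curv I F.e F.c W a b x‖ ≤
      (4 + 4 * C + Fintype.card ι * C) * δ := by
  have e : curv I F.e F.c (fun a y => W a y - α a y) a b x - curv I F.e F.c W a b x =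
      F.D b (α a) x - F.D a (α b) x - W a x * α b x - α a x * (W b x - α b x) + W b x * α a x +
        α b x * (W a x - α a x) + ∑ k, F.c a b k x • α k x := by
    have := fun a b => Wz78.dv_sub' (e := F.e a) (hW b) (hα b)
    simp only [curv, this, Pre.D_def, smul_sub, Finset.sum_sub_distrib, mul_sub, sub_mul]
    abel
  have h0 := (norm_nonneg _).trans (h3 a)
  have hC := (norm_nonneg _).trans (h1 a)
  have h5 : ∀ a b, ‖W a x * α b x‖ ≤ C * δ := fun a b =>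
    (norm_mul_le _ _).trans (mul_le_mul (h1 a) (h3 b) (norm_nonneg _) hC)
  have h6 : ∀ a b, ‖α a x * (W b x - α b x)‖ ≤ δ * (C + 1) := fun a b => (norm_mul_le _ _).trans
    (mul_le_mul (h3 a) (norm_sub_le_of_le (h1 b) ((h3 b).trans hδ)) (norm_nonneg _) h0)
  have h7 : ‖∑ k, F.c a b k x • α k x‖ ≤ Fintype.card ι * (C * δ) := by
    refine (norm_sum_le _ _).trans ((Finset.sum_le_card_nsmul _ _ _ fun k _ => ?_).trans
      (by rw [nsmul_eq_mul]; rfl))
    rw [norm_smul]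
    exact mul_le_mul (h2 a b k) (h3 k) (norm_nonneg _) hC
  rw [e]
  refine (norm_add_le_of_le (norm_add_le_of_le (norm_add_le_of_le (norm_sub_le_of_le
    (norm_sub_le_of_le (norm_sub_le_of_le (h4 b a) (h4 a b)) (h5 a b)) (h6 a b)) (h5 b a))
    (h6 b a)) h7).trans (le_of_eq ?_)
  ring

theorem exists_bd {κ : Type} [Fintype κ] {N : Type} [NormedAddCommGroup N] [NormedSpace ℝ N]
    {f : κ → M → N} (hK : IsCompact K) (h : ∀ i, ∀ x ∈ K, FSm I (f i) x) :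
    ∀ᶠ C in atTop, ∀ i, ∀ x ∈ K, ‖f i x‖ ≤ C := eventually_all.2 fun i =>
  let ⟨C, hC⟩ := hK.exists_bound_of_continuousOn fun x hx => (h i x hx).continuousAt.continuousWithinAt
  (eventually_ge_atTop C).mono fun _ h x hx => (hC x hx).trans h

/-- **the curvature and the derivative of the spinor depend Lipschitz continuously on the
configuration** -/
theorem q_bd (hB : B.OK I) {Ω : Set M} (hΩ : IsOpen Ω) (hc' : AdmOn c' B G Ω) (hK : IsCompact K)
    (hKΩ : K ⊆ Ω) : ∀ᶠ C in atTop, ∀ r (c : Cfg M ι lam r) u (ζ : Circle) O δ, AdmOn c B G O →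
      Cl G.F c c' u (fun _ => ζ) O 1 δ → δ ≤ 1 → ∀ x ∈ O ∩ K,
      (∀ s t, |qF G.F c s t x - qF G.F c' s t x| ≤ C * δ) ∧
        ∀ a, |qN G.F c a x - qN G.F c' a x| ≤ C * δ := by
  obtain ⟨C, ⟨⟨b1, b2⟩, ⟨b3, b4⟩, b5⟩, b0⟩ := ((((exists_bd hK fun a x hx =>
    hc'.conn.sm a x (hKΩ hx)).and (exists_bd (f := fun s : ι × ι × ι => G.F.c s.1 s.2.1 s.2.2) hK
      fun s x _ => G.F.c_sm _ _ _ x)).and (((exists_bd (f := fun _ : Unit => c'.Φ) hK
      fun _ x hx => hc'.sm x (hKΩ hx)).and (exists_bd hK fun s x hx =>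
      fsm_Fg hB hΩ hc' (hKΩ hx) s)).and (exists_bd hK fun a x hx => fsm_nab hc' (hKΩ hx) a))).and
    (eventually_ge_atTop 0)).exists
  set L := ‖(hsL : CL (En (Fin c'.m.N)) _)‖ * (4 + 4 * C + Fintype.card ι * C)
  filter_upwards [eventually_ge_atTop (L * (L + 2 * C)),
    eventually_ge_atTop ((2 + 2 * C) * (2 + 2 * C + 2 * C))] with C' c1 c2 r c u ζ O δ hc h hδ x hx
  have ho := h.op.inter hΩ
  have hi := h.iso.mono (inter_subset_left (t := Ω))
  have hx' : x ∈ O ∩ Ω := ⟨hx.1, hKΩ hx.2⟩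
  have k1 := hc.mono (inter_subset_left (t := Ω))
  have k2 := hc'.mono (inter_subset_right (s := O))
  have h0 : 0 ≤ δ := (norm_nonneg _).trans (h.P.le hx.1)
  refine ⟨fun s t => ?_, fun a => ?_⟩
  · have : ∀ s, ‖c'.m.Fg G.F (Wp G.F c c' u) x s - c'.m.Fg G.F c'.W x s‖ ≤ L * δ := fun s => by
      have := curv_diff (F := G.F) (fun a => hc'.conn.sm a x hx'.2) (fun a => (h.A a).sm hx.1)
        (fun a => b1 a x hx.2) (fun a b k => b2 (a, b, k) x hx.2) (fun a => (h.A a).le hx.1)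
        (fun a b => ((h.A b).D a).le hx.1) hδ s.1 s.2
      refine le_trans ?_ ((mul_le_mul_of_nonneg_left this
        (norm_nonneg (hsL : CL (En (Fin c'.m.N)) _))).trans_eq (mul_assoc _ _ _).symm)
      refine le_trans (le_of_eq ?_) ((Submodule.norm_starProjection_apply_le (c'.m.gS x) _).trans
        (ContinuousLinearMap.le_opNorm _ _))
      rw [map_sub, map_sub]; rfl
    rw [qF_eq hi ho k1 k2 hx']
    exact (inner_diff (this s) (this t) (b4 s x hx.2) (b4 t x hx.2) (by positivity) hδ).trans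
      (mul_le_mul_of_nonneg_right c1 h0)
  · have e : nab I G.F.e (Wp G.F c c' u) a (fun y => c'.Φ y + dP c c' u ζ y) x -
        nab I G.F.e c'.W a c'.Φ x = G.F.D a (fun y => dP c c' u ζ y) x + c'.W a x (dP c c' u ζ x) -
          dA G.F c c' u a x (c'.Φ x + dP c c' u ζ x) := by
      simp only [nab, Wp, Wz78.dv_add' (hc'.sm x hx'.2) (h.P.sm hx.1), Pre.D_def, sub_apply, map_add]
      abel
    have : ‖nab I G.F.e (Wp G.F c c' u) a (fun y => c'.Φ y + dP c c' u ζ y) x -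
        nab I G.F.e c'.W a c'.Φ x‖ ≤ (2 + 2 * C) * δ := by
      rw [e]
      refine (norm_sub_le_of_le (norm_add_le_of_le ((h.P.D a).le hx.1)
        (ContinuousLinearMap.le_of_opNorm_le_of_le _ (b1 a x hx.2) (h.P.le hx.1)))
        (ContinuousLinearMap.le_of_opNorm_le_of_le _ ((h.A a).le hx.1)
          (norm_add_le_of_le (b3 () x hx.2) ((h.P.le hx.1).trans hδ)))).trans (le_of_eq ?_)
      ring
    rw [qN_eq (ζ := ζ) hi ho k1 hx']
    exact (inner_diff this this (b5 a x hx.2) (b5 a x hx.2) (by positivity) hδ).trans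
      (mul_le_mul_of_nonneg_right c2 h0)

end gen

variable {E3 : Type} [NormedAddCommGroup E3] [NormedSpace ℝ E3] [FiniteDimensional ℝ E3]
  [MeasurableSpace E3] [BorelSpace E3]
  {H3 : Type} [TopologicalSpace H3] {I3 : ModelWithCorners ℝ E3 H3} [I3.Boundaryless]
  {Y : Type} [TopologicalSpace Y] [ChartedSpace H3 Y] [IsManifold I3 ∞ Y] [T2Space Y]
  [MeasurableSpace Y] [BorelSpace Y] [SecondCountableTopology Y] [CompactSpace Y]
  {κ : Type} [Fintype κ] {lam : Type} [Fintype lam] {D : YD I3 Y κ lam} {β : YC Y κ lam}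
  {r r' : ℕ} {c : Cfg (Y × ℝ) (Option κ) lam r} {γ : Cfg (Y × ℝ) (Option κ) lam r'}
  {O K : Set (Y × ℝ)} {x : Y × ℝ}

variable (D c) in
/-- the energy density on the cylinder -/
abbrev eZ : Y × ℝ → ℝ := en D.Z c Prod.snd

variable (D c) in
/-- the level density on the cylinder -/
abbrev kZ : Y × ℝ → ℝ := c.m.kd D.B D.Z c.W

theorem en_q (x : Y × ℝ) :
    eZ D c x = (∑ a, qF D.Z c (none, a) (none, a) x) / 4 + qN D.Z c none x := by
  have h1 := fun a => (cyD D).xA_snd (c := c) x a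
  have h2 := (cyD D).xP_snd (c := c) x
  simp only [YD.G] at h1 h2
  simp only [en, PiLp.norm_sq_eq_of_L2, h1, qF, qN, real_inner_self_eq_norm_sq]
  rw [← h2]

theorem fsm_en (hD : D.OK) (hO : IsOpen O) (h : AdmOn c D.B D.G O) (hx : x ∈ O) :
    FSm (IC I3) (eZ D c) x := by
  rw [funext en_q]
  exact (FSm.mul' (FSm.sum' fun a _ => fsm_inner (fsm_Fg hD.B hO h hx _) (fsm_Fg hD.B hO h hx _))
    (contMDiffAt_const (c := (4 : ℝ)⁻¹))).add (fsm_inner (fsm_nab h hx _) (fsm_nab h hx _))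

theorem ek_bd (hD : D.OK) {Ω : Set (Y × ℝ)} (hΩ : IsOpen Ω) (hγ : AdmOn γ D.B D.G Ω)
    (hK : IsCompact K) (hKΩ : K ⊆ Ω) : ∃ C > 0, ∀ r (c : Cfg (Y × ℝ) (Option κ) lam r) u
      (ζ : Circle) O δ, AdmOn c D.B D.G O → Cl D.Z c γ u (fun _ => ζ) O 1 δ → δ ≤ 1 →
      ∀ x ∈ O ∩ K, |eZ D c x - eZ D γ x| ≤ C * δ ∧ |kZ D c x - kZ D γ x| ≤ C * δ := by
  obtain ⟨C, ⟨h1, h2⟩, h0⟩ := (((q_bd hD.B hΩ hγ hK hKΩ).and (exists_bd (I := IC I3)
    (f := fun s : (Option κ × Option κ) × Option κ × Option κ => fun y => D.B.st y s.1 s.2) hK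
    fun s x _ => fsm_st hD.B _ _)).and (eventually_gt_atTop 0)).exists
  set n : ℝ := (Fintype.card (Option κ × Option κ) : ℝ)
  have hp : 0 < (128 * Real.pi ^ 2)⁻¹ := by positivity
  refine ⟨(Fintype.card (Option κ) + 1) * C + (128 * Real.pi ^ 2)⁻¹ * (n * (n * (C * C))),
    by positivity, fun r c u ζ O δ hc h hδ x hx => ?_⟩
  obtain ⟨h3, h4⟩ := h1 r c u ζ O δ hc h hδ x hx
  have h5 : 0 ≤ δ := (norm_nonneg _).trans (h.P.le hx.1)
  have h6 : |∑ a, qF D.Z c (none, a) (none, a) x - ∑ a, qF D.Z γ (none, a) (none, a) x| ≤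
      Fintype.card (Option κ) * (C * δ) := by
    rw [← Finset.sum_sub_distrib, ← nsmul_eq_mul]
    exact (Finset.abs_sum_le_sum_abs _ _).trans (Finset.sum_le_card_nsmul _ _ _ fun a _ => h3 _ _)
  have h7 : |∑ s, ∑ t, D.B.st x s t * qF D.Z c s t x - ∑ s, ∑ t, D.B.st x s t * qF D.Z γ s t x| ≤
      n * (n * (C * (C * δ))) := by
    simp only [← Finset.sum_sub_distrib, ← mul_sub, n, ← nsmul_eq_mul]
    refine (Finset.abs_sum_le_sum_abs _ _).trans (Finset.sum_le_card_nsmul _ _ _ fun s _ =>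
      (Finset.abs_sum_le_sum_abs _ _).trans (Finset.sum_le_card_nsmul _ _ _ fun t _ => ?_))
    rw [abs_mul]
    exact mul_le_mul (h2 (s, t) x hx.2) (h3 s t) (abs_nonneg _) h0.le
  have h8 : 0 ≤ (128 * Real.pi ^ 2)⁻¹ * (n * (n * (C * C))) * δ := by positivity
  have h9 : 0 ≤ (Fintype.card (Option κ) : ℝ) * (C * δ) := by positivity
  have h10 := mul_nonneg h0.le h5
  constructor
  · have := abs_le.1 (h4 none)
    rw [en_q, en_q, abs_le]
    rw [abs_le] at h6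
    simp only [YD.G] at this
    constructor <;> linarith
  · rw [kZ, kZ, kd_q, kd_q, ← mul_sub, abs_mul, abs_neg, abs_of_pos hp]
    nlinarith [mul_le_mul_of_nonneg_left h7 hp.le]

/-! ### translations -/

theorem sh_eq (s : ℝ) : sqC (· + s) c = sh s c :=
  congrArg (fun W => (⟨(sh s c).m, W, (sh s c).Φ, c.z⟩ : Cfg (Y × ℝ) (Option κ) lam r))
    (funext₂ fun a x => by cases a <;> simp [sw] <;> rfl)

theorem admOn_sh (h : AdmOn c D.B D.G O) (s : ℝ) :
    AdmOn (sh s c) D.B D.G (Tmp64.sq (· + s) ⁻¹' O) := sh_eq (c := c) s ▸ (cyD D).admOn_sq (sm_add s) h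

theorem dv_sh {N : Type} [NormedAddCommGroup N] [NormedSpace ℝ N] {f : Y × ℝ → N} {s : ℝ}
    (h : FSm (IC I3) f (Tmp64.sq (· + s) x)) (a : Option κ) :
    dv (IC I3) (D.Z.e a) (fun z : Y × ℝ => f (z.1, z.2 + s)) x =
      dv (IC I3) (D.Z.e a) f (Tmp64.sq (· + s) x) :=
  (D_sq D.F.toPre (sm_add s) h a).trans (by cases a <;> simp [sw] <;> rfl)

theorem ek_sh {s : ℝ} (h : AdmOn c D.B D.G O) (hx : Tmp64.sq (· + s) x ∈ O) :
    eZ D (sh s c) x = eZ D c (Tmp64.sq (· + s) x) ∧ kZ D (sh s c) x = kZ D c (Tmp64.sq (· + s) x) := by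
  have h1 : ∀ t, (sh s c).m.Fg D.Z (sh s c).W x t = c.m.Fg D.Z c.W (Tmp64.sq (· + s) x) t := by
    intro t
    have e : ∀ k, D.Z.c t.1 t.2 k x = D.Z.c t.1 t.2 k (Tmp64.sq (· + s) x) := fun k => by
      rcases t with ⟨_ | _, _ | _⟩ <;> cases k <;> rfl
    refine congrArg (fun T => c.m.pg (Tmp64.sq (· + s) x) (hsL T)) ?_
    have e1 := fun a b => dv_sh (D := D) (h.conn.sm b _ hx) a
    exact congrArg₂ (· - ·) (congrArg₂ (· + ·) (congrArg₂ (· - ·) (e1 _ _) (e1 _ _)) rfl)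
      (Finset.sum_congr rfl fun k _ => congrArg (· • c.W k (Tmp64.sq (· + s) x)) (e k))
  have h2 : ∀ t t', qF D.Z (sh s c) t t' x = qF D.Z c t t' (Tmp64.sq (· + s) x) := fun t t' =>
    congrArg₂ (inner ℝ) (h1 t) (h1 t')
  have h3 : nab (IC I3) D.Z.e (sh s c).W none (sh s c).Φ x =
      nab (IC I3) D.Z.e c.W none c.Φ (Tmp64.sq (· + s) x) :=
    congrArg (· + c.W none _ (c.Φ _)) (dv_sh (D := D) (h.sm _ hx) none)
  have h4 : qN D.Z (sh s c) none x = qN D.Z c none (Tmp64.sq (· + s) x) :=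
    congrArg₂ (inner ℝ) h3 h3
  exact ⟨by rw [en_q, en_q, h4]; simp only [h2], by rw [kZ, kZ, kd_q, kd_q]; simp only [h2]; rfl⟩

/-- no energy, no level -/
theorem kd_zero (hD : D.OK) (hc : c.Adm D.B D.G) (h : eZ D c x = 0) : kZ D c x = 0 := by
  have h1 : Dgr80.xA D.Z c Prod.snd x = 0 := by
    rw [← norm_eq_zero, ← sq_eq_zero_iff]
    rw [eZ, en] at h
    nlinarith [sq_nonneg ‖Dgr80.xA D.Z c Prod.snd x‖, sq_nonneg ‖Dgr80.xP D.Z c Prod.snd x‖]
  have h2 : ∀ a, c.m.Fg D.Z c.W x (none, a) = 0 := fun a =>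
    ((cyD D).xA_snd (c := c) x a).symm.trans (by rw [show D.G.F = D.Z from rfl, h1]; rfl)
  have h3 : ∀ a, c.m.Fg D.Z c.W x (a, none) = 0 := fun a =>
    (Wz78.Fg_swap hD.G hc.conn (x := x) (none, a)).trans (neg_eq_zero.2 (h2 a))
  rw [kZ, kd_q, Finset.sum_eq_zero fun s _ => Finset.sum_eq_zero fun t _ => ?_, mul_zero]
  rcases s with ⟨_ | a, _ | b⟩ <;> rcases t with ⟨_ | a', _ | b'⟩ <;>
    try simp only [qF, h2, h3, inner_zero_left, inner_zero_right, mul_zero]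
  have := Dgr80.o_five hD.B x none (some a) (some b) (some a') (some b')
  simp only [YD.B, Cyf70.cP, one_mul, zero_mul, add_zero] at this
  simp only [Base.st, YD.B, this, zero_div, zero_mul]

theorem en_cy (hβ : D.Adm β) (x : Y × ℝ) : eZ D (cy β) x = 0 := by
  have h0 : ∀ x, (cy β).W none x = 0 := fun x => hβ.tmp _
  have h1 : ∀ a, (cy β).m.Fg D.Z (cy β).W x (none, a) = 0 := fun a => by
    have := ((cyD D).curv_tmp h0 a x).trans (congrFun (D_none_fst D.F.toPre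
      (f := β.W a) fun _ => sm_slice (t := 0) (hβ.adm.conn.cc.sm a _)) x)
    exact (congrArg (fun T => (cy β).m.pg x (hsL T)) this).trans
      ((congrArg _ (map_zero _)).trans (map_zero _))
  have h2 : nab (IC I3) D.Z.e (cy β).W none (cy β).Φ x = 0 := ((cyD D).nab_tmp h0 _ x).trans
    (congrFun (D_none_fst D.F.toPre (f := β.Φ) fun _ => sm_slice (t := 0) (hβ.adm.sm _)) x)
  simp [en_q, qF, qN, h1, h2]

/-- **near a `t`-invariant configuration the densities are small** -/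
theorem ek_cy (hD : D.OK) (hβ : D.Adm β) : ∃ C > 0, ∀ r (c : Cfg (Y × ℝ) (Option κ) lam r) u
    (ζ : Circle) O δ, AdmOn c D.B D.G O → Cl D.Z c (cy β) u (fun _ => ζ) O 1 δ → δ ≤ 1 →
      ∀ x ∈ O, eZ D c x ≤ C * δ ∧ |kZ D c x| ≤ C * δ := by
  obtain ⟨C, h0, hC⟩ := ek_bd hD isOpen_univ (admOn_univ.2 hβ.adm) (cwin_cpt 0 1) (subset_univ _)
  refine ⟨C, h0, fun r c u ζ O δ hc h hδ x hx => ?_⟩
  have e : Tmp64.sq (· + x.2) (x.1, 0) = x := by simp [Tmp64.sq]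
  have hx' : Tmp64.sq (· + x.2) (x.1, 0) ∈ O := e.symm ▸ hx
  have := hC r _ _ ζ _ δ (admOn_sh hc x.2) (h.sh x.2) hδ (x.1, 0) ⟨hx', trivial, by simp⟩
  rw [(ek_sh hc hx').1, (ek_sh hc hx').2, e, en_cy hβ, kd_zero hD hβ.adm (en_cy hβ _), sub_zero,
    sub_zero] at this
  exact ⟨(le_abs_self _).trans this.1, this.2⟩

/-! ### integrals -/

theorem int_sh {N : Type} [NormedAddCommGroup N] [NormedSpace ℝ N] (f : Y × ℝ → N) (s : ℝ)
    (T : Set (Y × ℝ)) :
    ∫ x in Tmp64.sq (· + s) ⁻¹' T, f (Tmp64.sq (· + s) x) ∂D.Z.μ = ∫ x in T, f x ∂D.Z.μ :=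
  (MeasurePreserving.mk (trH Y s).measurable (map_tr D.F.toPre s)).setIntegral_preimage_emb
    (trH Y s).measurableEmbedding f T

theorem lint_time {g : ℝ → ENNReal} (hg : Measurable g) (T : Set ℝ) :
    ∫⁻ x in Prod.snd ⁻¹' T, g x.2 ∂D.Z.μ = D.F.μ univ * ∫⁻ s in T, g s := by
  have : (Prod.snd ⁻¹' T : Set (Y × ℝ)) = univ ×ˢ T := by ext; simp
  rw [this, show D.Z.μ = D.F.μ.prod volume from rfl, ← Measure.prod_restrict, Measure.restrict_univ,
    lintegral_prod (fun x : Y × ℝ => g x.2) (hg.comp measurable_snd).aemeasurable]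
  simp [mul_comm]

end Crest.Agent.X212.Bki64
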